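import Crest.Agent.N337.KV.Main
import Crest.Agent.N337.LY.Main

/-! # Row 337: `KVStmt` unconditionally (helper23) -/

namespace Crest.Agent.N337.KV

theorem kvStmt : KVStmt := kv Slot.ly

end Crest.Agent.N337.KV
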