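import Crest.Agent.N337.Slot.Defs

/-!
# Row 337, part KV: definitions and leaf statements (helper23)

One PERIOD of the discrete word is `per P r h δ = P * fug (exp (-δ h)) * sweep r δ`
(`P` = symmetriser, later times stand to the left); the word is `M` periods, `δ = β / M`.
-/

set_option autoImplicit false

namespace Crest.Agent.N337.KV

open Crest.MathPhysics.SpinModel Filter Topology Crest.Agent.N337.Slot

section defs
variable {Λ : Type} [Fintype Λ] [DecidableEq Λ]

/-- all ordered pairs of slots. -/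
noncomputable def prs (Λ : Type) [Fintype Λ] : List (Λ × Λ) := (Finset.univ : Finset (Λ × Λ)).toList

/-- one sweep of Bernoulli steps over all ordered pairs. -/
noncomputable def sweep (r : Λ → Λ → ℝ) (δ : ℝ) : BOp Λ :=
  ((prs Λ).map fun q => step q.1 q.2 (δ * r q.1 q.2 / 2)).reverse.prod

/-- one period. -/
noncomputable def per (P : BOp Λ) (r : Λ → Λ → ℝ) (h δ : ℝ) : BOp Λ :=
  P * fug (Real.exp (-(δ * h))) * sweep r δ

/-- complexification of a real matrix. -/
abbrev cx {m k : Type} (A : Matrix m k ℝ) : Matrix m k ℂ := A.map ((↑) : ℝ → ℂ)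

end defs

/-- **(Lim)** Trotter and Riemann limits.  `U` intertwines as in `SlotStmt`; `A', B'` are slot
lifts of the spin operators `A, B`. -/
def LimStmt : Prop :=
  ∀ (X : Type) [Fintype X] [DecidableEq X] (n : ℕ) (J : X → X → ℝ) (β h c0 : ℝ)
    (U : Matrix (X × Fin n → Bool) (X → Fin (n + 1)) ℝ), 0 < β → U.transpose * U = 1 →
    cx U * hamF n J h =
      cx (c0 • (1 : BOp (X × Fin n)) - gen (fun u v : X × Fin n => J u.1 v.1 / 2) h) * cx U →
    let V : ℕ → BOp (X × Fin n) := fun M =>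
      per (U * U.transpose) (fun u v : X × Fin n => J u.1 v.1 / 2) h (β / M)
    (∀ (A : Op X n) (A' : BOp (X × Fin n)), cx U * A = cx A' * cx U →
      Tendsto (fun M : ℕ => (A' * V M ^ M).trace / (V M ^ M).trace) atTop (𝓝 (ev n J β h A))) ∧
    (∀ (A B : Op X n) (A' B' : BOp (X × Fin n)), cx U * A = cx A' * cx U →
      cx U * B = cx B' * cx U →
      Tendsto (fun M : ℕ => β / M * (∑ k ∈ Finset.Ico 1 M,
        (A' * V M ^ k * B' * V M ^ (M - k)).trace) / (V M ^ M).trace) atTop
        (𝓝 (duh n J β h A B)))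

/-- **(Cor)** consequences of `LYStmt` for exact words. -/
def CorStmt : Prop :=
  ∀ (Λ : Type) [Fintype Λ] [DecidableEq Λ] (W1 W2 : BOp Λ), W1 ∈ Adm Λ → W2 ∈ Adm Λ →
    0 < (W1 * W2).trace → ∀ (A : Finset Λ) (b : Λ → ℝ), A.Nonempty → (∀ u, 0 ≤ b u) →
    (∀ u ∈ A, 1 ≤ b u) →
    let Z := (W1 * W2).trace
    ((nb A * (W1 * W2)).trace ≤
      Z * (Real.exp 1 * ((crF b * anF b * (W1 * W2)).trace / Z) / A.card) ^ A.card) ∧
    ∀ (c : Λ → ℝ) (x : Λ), (∀ u, 0 ≤ c u) → 1 ≤ b x →
      (anF c * W1 * (cr x * nb A) * W2).trace ≤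
        Real.exp 1 * (Real.exp 1 * ((crF b * anF b * (W2 * W1)).trace / Z) / A.card) ^ A.card *
          (anF c * W1 * crF b * W2).trace ∧
      (nb A * an x * W1 * crF c * W2).trace ≤
        Real.exp 1 * (Real.exp 1 * ((crF b * anF b * (W1 * W2)).trace / Z) / A.card) ^ A.card *
          (anF b * W1 * crF c * W2).trace

end Crest.Agent.N337.KV
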