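import Crest.Agent.N337.Basic
import Crest.Agent.N337.KV.Defs
import Crest.Agent.R339.Trot716

/-! # Row 337, part KV: Trotter and Riemann limits -/

set_option autoImplicit false
set_option linter.unusedSectionVars false

namespace Crest.Agent.N337.KV

open Crest.MathPhysics.SpinModel Filter Topology Crest.Agent.N337.Slot NormedSpace
open Crest.Agent.R339

namespace Lm

theorem riemann {f : ℝ → ℝ} (hf : Continuous f) {β : ℝ} (hβ : 0 < β) :
    Tendsto (fun M : ℕ => β / M * ∑ k ∈ Finset.Ico 1 M, f (k * (β / M))) atTop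
      (𝓝 (∫ t in (0 : ℝ)..β, f t)) := by
  have h0 : Tendsto (fun M : ℕ => β / M) atTop (𝓝 0) :=
    tendsto_const_div_atTop_nhds_zero_nat β
  have h1 : Tendsto (fun M : ℕ => β / M * ∑ k ∈ Finset.range M, f (k * (β / M))) atTop
      (𝓝 (∫ t in (0 : ℝ)..β, f t)) := by
    rw [Metric.tendsto_atTop']
    intro ε hε
    obtain ⟨δ, hδ, hu⟩ := Metric.uniformContinuousOn_iff.1
      (isCompact_Icc.uniformContinuousOn_of_continuous (hf.continuousOn (s := Set.Icc 0 β)))
      (ε / (2 * β)) (by positivity)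
    obtain ⟨N, hN⟩ := eventually_atTop.1 (h0.eventually (gt_mem_nhds hδ))
    refine ⟨N, fun M hM => ?_⟩
    have hM0 : (0 : ℝ) < M := by exact_mod_cast (Nat.zero_le N).trans_lt hM
    have hd : 0 < β / M := by positivity
    have e := intervalIntegral.sum_integral_adjacent_intervals (μ := MeasureTheory.volume)
      (f := f) (a := fun k : ℕ => k * (β / M)) (n := M) fun k _ => hf.intervalIntegrable _ _
    simp only [Nat.cast_zero, zero_mul, mul_div_cancel₀ β hM0.ne'] at e
    rw [Real.dist_eq, ← e, Finset.mul_sum, ← Finset.sum_sub_distrib]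
    refine (Finset.abs_sum_le_sum_abs _ _).trans_lt ?_
    refine (Finset.sum_le_card_nsmul _ _ (ε / (2 * β) * (β / M)) fun k hk => ?_).trans_lt ?_
    · have hk : ((k + 1 : ℕ) : ℝ) ≤ M := by exact_mod_cast Finset.mem_range.1 hk
      have hle : (k : ℝ) * (β / M) ≤ (k + 1 : ℕ) * (β / M) := by push_cast; nlinarith
      have hle' : ((k + 1 : ℕ) : ℝ) * (β / M) ≤ β := by
        calc _ ≤ M * (β / M) := by gcongr
          _ = β := by field_simp
      have e2 : β / M * f (k * (β / M)) =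
          ∫ _ in (k * (β / M))..((k + 1 : ℕ) * (β / M)), f (k * (β / M)) := by
        rw [intervalIntegral.integral_const]; push_cast; simp only [smul_eq_mul]; ring
      rw [e2, ← intervalIntegral.integral_sub (by simp) (hf.intervalIntegrable _ _),
        ← Real.norm_eq_abs]
      refine (intervalIntegral.norm_integral_le_of_norm_le_const (C := ε / (2 * β))
        fun t ht => ?_).trans (le_of_eq ?_)
      · rw [Set.uIoc_of_le hle] at ht
        have a1 : 0 ≤ (k : ℝ) * (β / M) := by positivity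
        refine (hu _ ⟨a1, hle.trans hle'⟩ t ⟨a1.trans ht.1.le, ht.2.trans hle'⟩ ?_).le
        have := ht.2
        push_cast at this
        rw [Real.dist_eq, abs_sub_comm, abs_of_nonneg (sub_nonneg.2 ht.1.le)]
        linarith [hN M hM.le]
      · push_cast
        rw [show ((k : ℝ) + 1) * (β / M) - k * (β / M) = β / M by ring, abs_of_pos hd]
    · rw [Finset.card_range, nsmul_eq_mul]
      have : (M : ℝ) * (ε / (2 * β) * (β / M)) = ε / 2 := by field_simp
      linarith
  have h2 := h1.sub (h0.mul_const (f 0))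
  rw [zero_mul, sub_zero] at h2
  refine h2.congr' ?_
  filter_upwards [eventually_gt_atTop 0] with M hM
  rw [Finset.range_eq_Ico, Finset.sum_eq_sum_Ico_succ_bot hM]
  simp; ring

section banach
variable {𝔸 : Type*} [NormedRing 𝔸] [NormedAlgebra ℝ 𝔸] [CompleteSpace 𝔸] [NormOneClass 𝔸]

theorem unif {G : ℝ → 𝔸} {Y : 𝔸} (h0 : G 0 = 1) (hG : HasDerivAt G Y 0) {β : ℝ} (hβ : 0 < β)
    {ε : ℝ} (hε : 0 < ε) :
    ∀ᶠ M : ℕ in atTop, ∀ k ≤ M, ‖G (β / M) ^ k - exp ((k * (β / M)) • Y)‖ ≤ ε := by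
  let _ : NormedAlgebra ℚ 𝔸 := NormedAlgebra.restrictScalars ℚ ℝ 𝔸
  have hk : Tendsto (fun M : ℕ => β / M) atTop (𝓝[≠] (0 : ℝ)) :=
    tendsto_nhdsWithin_iff.2 ⟨tendsto_const_div_atTop_nhds_zero_nat β, by
      filter_upwards [eventually_gt_atTop 0] with M hM
      have : (0 : ℝ) < β / M := by positivity
      exact this.ne'⟩
  have h1 := hG.tendsto_slope_zero.comp hk
  have h2 := (Trot.hasDerivAt_exp_smul_zero Y).tendsto_slope_zero.comp hk
  have h3 := ((h1.sub h2).norm).const_mul (β * Real.exp (β * (‖Y‖ + 1)))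
  rw [sub_self, norm_zero, mul_zero] at h3
  filter_upwards [h3.eventually (gt_mem_nhds hε), h1.norm.eventually_lt_const (lt_add_one ‖Y‖),
    eventually_gt_atTop 0] with M a1 a2 hM k hk
  have hM0 : (0 : ℝ) < M := by exact_mod_cast hM
  have hd : 0 < β / M := by positivity
  simp only [Function.comp, zero_add, h0, zero_smul, exp_zero, ← smul_sub, sub_sub_sub_cancel_right,
    norm_smul, norm_inv, Real.norm_of_nonneg hd.le] at a1 a2
  have b1 : ‖G (β / M)‖ ≤ Real.exp (β / M * (‖Y‖ + 1)) := by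
    rw [inv_mul_lt_iff₀ hd] at a2
    have := norm_add_le (G (β / M) - 1) 1
    rw [sub_add_cancel, norm_one] at this
    linarith [Real.add_one_le_exp (β / M * (‖Y‖ + 1))]
  have b2 : ‖exp ((β / M) • Y)‖ ≤ Real.exp (β / M * (‖Y‖ + 1)) := by
    refine (Trot.norm_exp_le _).trans (Real.exp_le_exp.2 ?_)
    rw [norm_smul, Real.norm_of_nonneg hd.le]
    gcongr; linarith
  have e : exp ((k * (β / M)) • Y) = exp ((β / M) • Y) ^ k := by
    rw [← exp_nsmul, mul_smul, Nat.cast_smul_eq_nsmul]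
  rw [e]
  refine (Trot.norm_pow_sub_pow_le _ _ _ b1 b2 (Real.one_le_exp (by positivity)) k).trans
    (le_trans ?_ a1.le)
  have hkM : (k : ℝ) ≤ M := by exact_mod_cast hk
  rw [← Real.exp_nat_mul, ← mul_assoc (β * _), mul_comm β (Real.exp _), mul_assoc _ β,
    show β * (β / M)⁻¹ = M by field_simp, mul_comm (k : ℝ), ← mul_assoc (k : ℝ)]
  have : (k : ℝ) * (β / M) ≤ β :=
    calc (k : ℝ) * (β / M) ≤ M * (β / M) := by gcongr
      _ = β := by field_simp
  gcongr

theorem lim_one {G : ℝ → 𝔸} {Y : 𝔸} (h0 : G 0 = 1) (hG : HasDerivAt G Y 0) {β : ℝ} (hβ : 0 < β) :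
    Tendsto (fun M : ℕ => G (β / M) ^ M) atTop (𝓝 (exp (β • Y))) := by
  rw [Metric.tendsto_nhds]
  intro ε hε
  filter_upwards [unif h0 hG hβ (half_pos hε), eventually_gt_atTop 0] with M h hM
  have := h M le_rfl
  have hM0 : (M : ℝ) ≠ 0 := by positivity
  rw [mul_div_cancel₀ β hM0] at this
  rw [dist_eq_norm]; linarith

theorem lim_two {G : ℝ → 𝔸} {Y : 𝔸} (h0 : G 0 = 1) (hG : HasDerivAt G Y 0) {β : ℝ} (hβ : 0 < β)
    (τ : 𝔸 →L[ℝ] ℝ) (A B : 𝔸) :
    Tendsto (fun M : ℕ => β / M * ∑ k ∈ Finset.Ico 1 M,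
      τ (A * G (β / M) ^ k * B * G (β / M) ^ (M - k))) atTop
      (𝓝 (∫ t in (0 : ℝ)..β, τ (A * exp (t • Y) * B * exp ((β - t) • Y)))) := by
  let _ : NormedAlgebra ℚ 𝔸 := NormedAlgebra.restrictScalars ℚ ℝ 𝔸
  have hc : Continuous fun t : ℝ => exp (t • Y) :=
    (exp_continuous (𝔸 := 𝔸)).comp (continuous_id.smul continuous_const)
  have hc' : Continuous fun t : ℝ => exp ((β - t) • Y) := hc.comp (continuous_const.sub continuous_id)
  have h1 := riemann (f := fun t => τ (A * exp (t • Y) * B * exp ((β - t) • Y)))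
    (τ.continuous.comp (((continuous_const.mul hc).mul continuous_const).mul hc')) hβ
  refine h1.congr_dist ?_
  rw [Metric.tendsto_nhds]
  intro ε hε
  set K := Real.exp (β * ‖Y‖) with hK
  set C := β * (‖τ‖ * (‖A‖ * ‖B‖ * (2 * K + 1))) with hC
  have hC0 : 0 ≤ C := by positivity
  set η := min 1 (ε / (C + 1)) with hη
  have hη0 : 0 < η := by positivity
  filter_upwards [unif h0 hG hβ hη0, eventually_gt_atTop 0] with M h hM
  have hM0 : (0 : ℝ) < M := by exact_mod_cast hM
  have hd : 0 < β / M := by positivity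
  have hb : ∀ k ≤ M, ‖exp ((k * (β / M)) • Y)‖ ≤ K := fun k hk => by
    refine (Trot.norm_exp_le _).trans (Real.exp_le_exp.2 ?_)
    have hkM : (k : ℝ) ≤ M := by exact_mod_cast hk
    rw [norm_smul, Real.norm_of_nonneg (by positivity)]
    gcongr
    calc (k : ℝ) * (β / M) ≤ M * (β / M) := by gcongr
      _ = β := by field_simp
  rw [dist_zero_right, Real.norm_of_nonneg dist_nonneg, Real.dist_eq, ← mul_sub,
    ← Finset.sum_sub_distrib, abs_mul, abs_of_pos hd]
  have key : ∀ k ∈ Finset.Ico 1 M,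
      |τ (A * exp ((k * (β / M)) • Y) * B * exp ((β - k * (β / M)) • Y)) -
        τ (A * G (β / M) ^ k * B * G (β / M) ^ (M - k))| ≤
      ‖τ‖ * (‖A‖ * ‖B‖ * (2 * K + 1)) * η := by
    intro k hk
    have hk := (Finset.mem_Ico.1 hk).2.le
    have e : β - k * (β / M) = (M - k : ℕ) * (β / M) := by
      rw [Nat.cast_sub hk]; field_simp
    rw [e, ← map_sub, mul_assoc ‖τ‖, ← Real.norm_eq_abs]
    refine (τ.le_opNorm _).trans (mul_le_mul_of_nonneg_left ?_ (norm_nonneg _))
    have a1 := h k hk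
    have a2 := h (M - k) (Nat.sub_le _ _)
    have a3 := hb k hk
    have a4 := hb (M - k) (Nat.sub_le _ _)
    generalize exp ((k * (β / M)) • Y) = P' at *
    generalize exp ((((M - k : ℕ) : ℝ) * (β / M)) • Y) = Q' at *
    generalize G (β / M) ^ k = P at *
    generalize G (β / M) ^ (M - k) = Q at *
    have a5 : ‖Q‖ ≤ K + 1 := by
      have := norm_add_le (Q - Q') Q'
      rw [sub_add_cancel] at this
      linarith [min_le_left 1 (ε / (C + 1))]
    rw [norm_sub_rev,
      show A * P * B * Q - A * P' * B * Q' = A * (P - P') * B * Q + A * P' * B * (Q - Q') by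
        noncomm_ring]
    have n4 : ∀ a b c d : 𝔸, ‖a * b * c * d‖ ≤ ‖a‖ * ‖b‖ * ‖c‖ * ‖d‖ := fun a b c d =>
      (norm_mul_le _ _).trans (by gcongr; exact (norm_mul_le _ _).trans (by gcongr; exact norm_mul_le _ _))
    calc _ ≤ ‖A‖ * ‖P - P'‖ * ‖B‖ * ‖Q‖ + ‖A‖ * ‖P'‖ * ‖B‖ * ‖Q - Q'‖ :=
          (norm_add_le _ _).trans (add_le_add (n4 _ _ _ _) (n4 _ _ _ _))
      _ ≤ ‖A‖ * η * ‖B‖ * (K + 1) + ‖A‖ * K * ‖B‖ * η := by gcongr
      _ = _ := by ring
  calc _ ≤ β / M * (M * (‖τ‖ * (‖A‖ * ‖B‖ * (2 * K + 1)) * η)) := by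
        gcongr
        refine (Finset.abs_sum_le_sum_abs _ _).trans
          ((Finset.sum_le_card_nsmul _ _ _ key).trans ?_)
        rw [nsmul_eq_mul]
        gcongr
        simp
    _ = C * η := by rw [hC]; field_simp
    _ ≤ C * (ε / (C + 1)) := by gcongr; exact min_le_right _ _
    _ < ε := by rw [← mul_div_assoc, div_lt_iff₀ (by positivity)]; nlinarith

theorem deriv_list {ι : Type*} (L : List ι) (a : ι → 𝔸) :
    HasDerivAt (fun d : ℝ => (L.map fun q => 1 + d • a q).reverse.prod) (L.map a).sum 0 := by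
  induction L with
  | nil => simpa using hasDerivAt_const (0 : ℝ) (1 : 𝔸)
  | cons q L ih =>
    have h1 : HasDerivAt (fun d : ℝ => 1 + d • a q) (a q) 0 := by
      simpa using ((hasDerivAt_id (0 : ℝ)).smul_const (a q)).const_add 1
    have := ih.fun_mul h1
    simpa [add_comm] using this
end banach

section mat
variable {m k l : Type} [Fintype m] [Fintype k] [Fintype l]

theorem cx_mul (A : Matrix m k ℝ) (B : Matrix k l ℝ) : cx (A * B) = cx A * cx B :=
  Matrix.map_mul (f := Complex.ofRealHom)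
theorem cx_trace (A : Matrix m m ℝ) : (cx A).trace.re = A.trace := by
  simp [Matrix.trace]

variable [DecidableEq m] [DecidableEq k]
theorem pow_mul_U {S : Type} [CommRing S] (U : Matrix m k S) (Ut : Matrix k m S)
    (F : Matrix m m S) (j : ℕ) : (U * Ut * F) ^ j * U = U * (Ut * F * U) ^ j := by
  induction j with
  | zero => simp
  | succ j ih => rw [pow_succ', pow_succ', Matrix.mul_assoc _ _ U, ih]; simp only [Matrix.mul_assoc]
theorem pow_succ_U {S : Type} [CommRing S] (U : Matrix m k S) (Ut : Matrix k m S)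
    (F : Matrix m m S) (j : ℕ) : (U * Ut * F) ^ (j + 1) = U * (Ut * F * U) ^ j * (Ut * F) := by
  rw [pow_succ, ← pow_mul_U]; simp only [Matrix.mul_assoc]
theorem trace_red {S : Type} [CommRing S] {U : Matrix m k S} {Ut : Matrix k m S}
    (F : Matrix m m S) {Z' : Matrix m m S} {Z : Matrix k k S}
    (h : U * Z = Z' * U) {j : ℕ} (hU : Ut * U = 1) (hj : 0 < j) :
    (Z' * (U * Ut * F) ^ j).trace = (Z * (Ut * F * U) ^ j).trace := by
  obtain ⟨j, rfl⟩ := Nat.exists_eq_succ_of_ne_zero hj.ne'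
  have _ := hU
  rw [pow_succ_U, ← Matrix.mul_assoc Z', ← Matrix.mul_assoc Z', ← h, Matrix.mul_assoc,
    Matrix.mul_assoc, Matrix.trace_mul_comm, pow_succ]
  simp only [Matrix.mul_assoc]
end mat
end Lm

open Lm in
open scoped Matrix.Norms.Operator in
theorem lim : LimStmt := by
  intro X _ _ n J β h c0 U hβ hU hH V
  set r : X × Fin n → X × Fin n → ℝ := fun u v => J u.1 v.1 / 2 with hr
  let φ : BOp (X × Fin n) →+* Matrix (X × Fin n → Bool) (X × Fin n → Bool) ℂ :=
    Complex.ofRealHom.mapMatrix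
  have hφ : ∀ A, φ A = cx A := fun _ => rfl
  have hU' : cx U.transpose * cx U = 1 := by
    rw [← cx_mul, hU]; exact Matrix.map_one _ (by simp) (by simp)
  let F : ℝ → BOp (X × Fin n) := fun d => fug (Real.exp (-(d * h))) * sweep r d
  let ψ : BOp (X × Fin n) →ₗ[ℝ] Op X n :=
    { toFun := fun A => cx U.transpose * cx A * cx U
      map_add' := fun A B => by
        rw [← hφ, map_add, Matrix.mul_add, Matrix.add_mul]; rfl
      map_smul' := fun c A => by
        have : cx (c • A) = c • cx A := by ext i j; simp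
        rw [this, Matrix.mul_smul, Matrix.smul_mul]; rfl }
  have hF0 : F 0 = 1 := by
    have : ∀ x y : X × Fin n, step x y 0 = 1 := fun x y => by simp [step]
    simp [F, fug, sweep, this]
  have hF : HasDerivAt F (gen r h) 0 := by
    have h1 : HasDerivAt (fun d => (fug (Real.exp (-(d * h))) : BOp (X × Fin n)))
        (-(h • Matrix.diagonal fun σ => (cnt σ : ℝ))) 0 := by
      have h2 : HasDerivAt (fun d => fun σ : X × Fin n → Bool => Real.exp (-(d * h)) ^ cnt σ)
          (fun σ => -(h * cnt σ)) 0 := hasDerivAt_pi.2 fun σ => by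
        have := (((hasDerivAt_id (0 : ℝ)).mul_const h).neg.exp).fun_pow (cnt σ)
        simpa [mul_comm] using this
      have := (LinearMap.toContinuousLinearMap (Matrix.diagonalLinearMap (X × Fin n → Bool) ℝ
        ℝ)).hasFDerivAt.comp_hasDerivAt (0 : ℝ) h2
      refine HasDerivAt.congr_deriv this ?_
      change Matrix.diagonal _ = _
      ext i j
      by_cases e : i = j <;> simp [e]
    have h2 := deriv_list (prs (X × Fin n)) fun q => (r q.1 q.2 / 2) • (swp q.1 q.2 - 1)
    have e : ∀ d, sweep r d = ((prs (X × Fin n)).map fun q =>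
        1 + d • (r q.1 q.2 / 2) • (swp q.1 q.2 - 1)).reverse.prod := fun d => by
      unfold sweep
      congr 3
      funext q
      rw [step, smul_smul, smul_sub, sub_smul, one_smul, mul_div_assoc]; abel
    have h3 := h1.fun_mul h2
    simp only [← e] at h3
    refine HasDerivAt.congr_deriv h3 ?_
    rw [e 0, prs, Finset.sum_map_toList, Fintype.sum_prod_type, gen]
    simp [fug]; abel
  let G : ℝ → Op X n := fun d => Real.exp (-(d * c0)) • ψ (F d)
  have hψ1 : ψ 1 = 1 := by
    change cx U.transpose * φ 1 * cx U = 1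
    rw [map_one, Matrix.mul_one, hU']
  have hG0 : G 0 = 1 := by simp [G, hF0, hψ1]
  have hG : HasDerivAt G (-hamF n J h) 0 := by
    have h1 := (LinearMap.toContinuousLinearMap ψ).hasFDerivAt.comp_hasDerivAt (0 : ℝ) hF
    have h2 := (((hasDerivAt_id (0 : ℝ)).mul_const c0).neg.exp).smul h1
    refine HasDerivAt.congr_deriv h2 ?_
    have h3 : ψ (c0 • 1 - gen r h) = hamF n J h := by
      change cx U.transpose * cx (c0 • 1 - gen r h) * cx U = _
      rw [Matrix.mul_assoc, ← hH, ← Matrix.mul_assoc, hU', Matrix.one_mul]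
    rw [← h3, map_sub, map_smul, hψ1]
    simp [hF0, hψ1]
    exact (sub_eq_add_neg (ψ (gen r h)) _).symm
  have hW : ∀ t : ℝ, exp (t • -hamF n J h) = W n J h t := fun t => by
    rw [W]; congr 1; ext i j; simp
  let τ : Op X n →L[ℝ] ℝ := LinearMap.toContinuousLinearMap
    (Complex.reLm ∘ₗ Matrix.traceLinearMap _ ℝ ℂ)
  have hτ : ∀ Z, τ Z = Z.trace.re := fun _ => rfl
  have hV : ∀ M, cx (V M) = cx U * cx U.transpose * cx (F (β / M)) := fun M => by
    rw [← cx_mul, ← cx_mul, ← Matrix.mul_assoc]; rfl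
  have hred : ∀ (M : ℕ) (Z : Op X n) (Z' : BOp (X × Fin n)), cx U * Z = cx Z' * cx U →
      ∀ j, 0 < j → (Z' * V M ^ j).trace = τ (Z * ψ (F (β / M)) ^ j) := by
    intro M Z Z' hZ j hj
    rw [← cx_trace, ← hφ, map_mul, map_pow, hφ, hφ, hV, trace_red _ hZ hU' hj]; rfl
  have hE : ∀ M : ℕ, 0 < M → Real.exp (-(β / M * c0)) ^ M = Real.exp (-(β * c0)) := fun M hM => by
    have : (M : ℝ) ≠ 0 := by positivity
    rw [← Real.exp_nat_mul]; congr 1; field_simp
  have h1 : ∀ (A : Op X n) (A' : BOp (X × Fin n)), cx U * A = cx A' * cx U →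
      Tendsto (fun M : ℕ => Real.exp (-(β * c0)) * (A' * V M ^ M).trace) atTop
        (𝓝 (A * W n J h β).trace.re) := by
    intro A A' hA
    have := (τ.continuous.tendsto _).comp ((lim_one hG0 hG hβ).const_mul A)
    erw [hW] at this
    refine this.congr' ?_
    filter_upwards [eventually_gt_atTop 0] with M hM
    rw [hred M A A' hA M hM, Function.comp, smul_pow, hE M hM, mul_smul_comm, map_smul,
      smul_eq_mul]
  have hZ := h1 1 1 (by rw [← hφ, map_one]; simp)
  simp only [one_mul] at hZ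
  have hZ0 := (Zp_pos (n := n) J β h).ne'
  refine ⟨fun A A' hA => ((h1 A A' hA).div hZ hZ0).congr fun M => ?_, fun A B A' B' hA hB => ?_⟩
  · exact mul_div_mul_left _ _ (Real.exp_ne_zero _)
  · have h2 := lim_two hG0 hG hβ τ A B
    replace h2 := h2.mono_right (le_of_eq (congrArg 𝓝 (intervalIntegral.integral_congr
      (g := fun t => (A * W n J h t * B * W n J h (β - t)).trace.re) fun t _ => by
        simp only [← hW]; rfl)))
    refine (h2.div hZ hZ0).congr' ?_
    filter_upwards [eventually_gt_atTop 0] with M hM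
    rw [Pi.div_apply, ← mul_div_mul_left _ (V M ^ M).trace (Real.exp_ne_zero (-(β * c0))),
      mul_left_comm, Finset.mul_sum _ _ (Real.exp _)]
    congr 2
    refine Finset.sum_congr rfl fun k hk => ?_
    obtain ⟨hk1, hk2⟩ := Finset.mem_Ico.1 hk
    rw [hred M (A * ψ (F (β / M)) ^ k * B) _ _ _ (Nat.sub_pos_of_lt hk2), ← hE M hM]
    · simp only [G, smul_pow, mul_smul_comm, smul_mul_assoc, smul_smul]
      rw [← pow_add, Nat.sub_add_cancel hk2.le]
      exact map_smul τ _ _
    · rw [← hφ (_ * B'), map_mul φ, map_mul φ, map_pow φ, hφ, hφ, hφ, hV, Matrix.mul_assoc _ _ (cx U),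
        ← hB, ← Matrix.mul_assoc, ← Matrix.mul_assoc, ← Matrix.mul_assoc, hA,
        Matrix.mul_assoc _ _ (cx U), pow_mul_U, Matrix.mul_assoc (cx A')]
      rfl

end Crest.Agent.N337.KV
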