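import Crest.Agent.N337.KV.Defs

/-!
# Row 337, part KV: amplitudes of periodic words (helper23)
-/

set_option autoImplicit false
set_option linter.unusedSectionVars false

namespace Crest.Agent.N337.KV

open Crest.Agent.N337.Slot Finset Matrix

section pr
variable {α : Type} [Monoid α]

/-- `f (k-1) * ⋯ * f 0`. -/
def pr (f : ℕ → α) (k : ℕ) : α := ((List.range k).map f).reverse.prod

theorem pr_zero (f : ℕ → α) : pr f 0 = 1 := by simp [pr]

theorem pr_succ (f : ℕ → α) (k : ℕ) : pr f (k + 1) = f k * pr f k := by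
  simp [pr, List.range_succ]

theorem pr_congr {f g : ℕ → α} {k : ℕ} (h : ∀ j < k, f j = g j) : pr f k = pr g k := by
  induction k with
  | zero => simp [pr_zero]
  | succ k ih => rw [pr_succ, pr_succ, h k (by omega), ih fun j hj => h j (by omega)]

theorem pr_add (f : ℕ → α) (a b : ℕ) : pr f (a + b) = pr (fun j => f (a + j)) b * pr f a := by
  induction b with
  | zero => simp [pr_zero]
  | succ b ih => rw [← Nat.add_assoc, pr_succ, pr_succ, ih, mul_assoc]

theorem pr_succ' (f : ℕ → α) (k : ℕ) : pr f (k + 1) = pr (fun j => f (j + 1)) k * f 0 := by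
  rw [Nat.add_comm, pr_add]
  simp only [Nat.add_comm 1]
  rw [show pr f 1 = f 0 by rw [pr_succ, pr_zero, mul_one]]

theorem pr_mul {f : ℕ → α} {L : ℕ} (hf : ∀ j, f (L + j) = f j) (k : ℕ) :
    pr f (k * L) = pr f L ^ k := by
  induction k with
  | zero => simp [pr_zero]
  | succ k ih =>
    rw [Nat.succ_mul, Nat.add_comm, pr_add, pow_succ]
    simp only [hf, ih]

theorem per_mul {β : Type} {f : ℕ → β} {L : ℕ} (hf : ∀ j, f (L + j) = f j) (k j : ℕ) :
    f (k * L + j) = f j := by
  induction k with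
  | zero => simp
  | succ k ih => rw [Nat.succ_mul, Nat.add_comm (k * L), Nat.add_assoc, hf, ih]

theorem pr_ins (Y : ℕ → α) (B : α) {k : ℕ} (hk : 0 < k) :
    pr (fun j => Y j * if j = 0 then B else 1) k = pr Y k * B := by
  obtain ⟨k, rfl⟩ : ∃ k', k = k' + 1 := ⟨k - 1, by omega⟩
  rw [pr_succ', pr_succ']
  simp [mul_assoc]

theorem pr_getD (l : List α) : pr (fun j => l.getD j 1) l.length = l.reverse.prod := by
  unfold pr
  congr 2
  apply List.ext_getElem
  · simp
  · intro i h1 h2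
    simp [List.getD_eq_getElem?_getD, List.getElem?_eq_getElem h2]

end pr

/-- cyclic time. -/
def tm (T : ℕ) [NeZero T] (k : ℕ) : Fin T := Fin.ofNat T k

section tm
variable {T : ℕ} [NeZero T]

theorem tm_val (k : ℕ) : (tm T k).val = k % T := rfl

theorem tm_succ (k : ℕ) : tm T (k + 1) = tm T k + 1 := by
  apply Fin.ext
  simp [tm_val, Fin.val_add]

theorem tm_add_self (k : ℕ) : tm T (T + k) = tm T k := Fin.ext (by simp [tm_val])

theorem tm_val_of_lt {k : ℕ} (hk : k < T) : (tm T k).val = k := Nat.mod_eq_of_lt hk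

theorem tm_fin (s : Fin T) : tm T s.val = s := Fin.ext (tm_val_of_lt s.2)

theorem tm_add_inj (c : ℕ) {a b : ℕ} (ha : a < T) (hb : b < T) :
    tm T (c + a) = tm T (c + b) ↔ a = b := by
  refine ⟨fun h => ?_, fun h => by rw [h]⟩
  have h1 : (c + a) % T = (c + b) % T := congrArg Fin.val h
  have h2 : a % T = b % T := Nat.ModEq.add_left_cancel' c h1
  rwa [Nat.mod_eq_of_lt ha, Nat.mod_eq_of_lt hb] at h2

theorem sum_tm {β : Type} [AddCommMonoid β] (φ : Fin T → β) :
    ∑ s, φ s = ∑ k ∈ range T, φ (tm T k) := by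
  rw [← Fin.sum_univ_eq_sum_range (fun k => φ (tm T k))]
  simp only [tm_fin]

theorem prod_tm {β : Type} [CommMonoid β] (φ : Fin T → β) :
    ∏ s, φ s = ∏ k ∈ range T, φ (tm T k) := by
  rw [← Fin.prod_univ_eq_prod_range (fun k => φ (tm T k))]
  simp only [tm_fin]

end tm

theorem prod_range_mul {β : Type} [CommMonoid β] (φ : ℕ → β) (M L : ℕ) :
    ∏ k ∈ range (M * L), φ k = ∏ i ∈ range M, ∏ j ∈ range L, φ (i * L + j) := by
  induction M with
  | zero => simp
  | succ M ih => rw [Nat.succ_mul, Finset.prod_range_add, ih, Finset.prod_range_succ]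

theorem sum_range_mul {β : Type} [AddCommMonoid β] (φ : ℕ → β) (M L : ℕ) :
    ∑ k ∈ range (M * L), φ k = ∑ i ∈ range M, ∑ j ∈ range L, φ (i * L + j) := by
  induction M with
  | zero => simp
  | succ M ih => rw [Nat.succ_mul, Finset.sum_range_add, ih, Finset.sum_range_succ]

theorem sum_range_shift (φ : ℕ → ℝ) (M : ℕ) (h : ∀ j, φ (M + j) = φ j) (i : ℕ) :
    ∑ k ∈ range M, φ (i + k) = ∑ k ∈ range M, φ k := by
  induction i with
  | zero => simp
  | succ i ih =>
    have h1 := Finset.sum_range_succ (fun k => φ (i + k)) M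
    have h2 := Finset.sum_range_succ' (fun k => φ (i + k)) M
    simp only [Nat.add_zero] at h2
    rw [Nat.add_comm i M, h] at h1
    rw [← ih]
    have : ∀ k, i + 1 + k = i + (k + 1) := fun k => by omega
    simp only [this]
    linarith

section amp
variable {Λ : Type} [Fintype Λ] [DecidableEq Λ] {T : ℕ} [NeZero T]

theorem trace_pr_shift (f : ℕ → BOp Λ) (hf : ∀ j, f (T + j) = f j) (c : ℕ) :
    (pr (fun j => f (c + j)) T).trace = (pr f T).trace := by
  induction c with
  | zero => simp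
  | succ c ih =>
    obtain ⟨T', hT⟩ : ∃ T', T = T' + 1 := Nat.exists_eq_succ_of_ne_zero (NeZero.ne T)
    rw [← ih]
    have e1 : f (c + 1 + T') = f c := by rw [← hf c]; congr 1; omega
    have e2 : ∀ j, c + 1 + j = c + (j + 1) := fun j => by omega
    conv_lhs => rw [hT, pr_succ, e1]
    conv_rhs => rw [hT, pr_succ']
    simp only [e2, Nat.add_zero]
    exact Matrix.trace_mul_comm _ _

theorem amp_eq (Y O : Fin T → BOp Λ) (c : ℕ) :
    amp Y O = (pr (fun j => Y (tm T (c + j)) * O (tm T (c + j))) T).trace := by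
  rw [trace_pr_shift (fun j => Y (tm T j) * O (tm T j)) (fun j => by rw [tm_add_self])]
  unfold amp pr
  congr 3
  apply List.ext_getElem
  · simp
  · intro i h1 h2
    have hi : i < T := by simpa using h1
    have : tm T i = ⟨i, hi⟩ := tm_fin ⟨i, hi⟩
    simp [this]

end amp

section peramp
variable {Λ : Type} [Fintype Λ] [DecidableEq Λ] {M L : ℕ} [NeZero (M * L)]
  {Y : Fin (M * L) → BOp Λ} {Y' : ℕ → BOp Λ}

theorem amp_one (hY : ∀ k, Y (tm (M * L) k) = Y' k) (hp : ∀ j, Y' (L + j) = Y' j) :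
    amp Y (fun _ => 1) = (pr Y' L ^ M).trace := by
  rw [amp_eq Y _ 0, ← pr_mul hp]
  simp [hY]

theorem amp_ins1 (hY : ∀ k, Y (tm (M * L) k) = Y' k) (hp : ∀ j, Y' (L + j) = Y' j) (i : ℕ)
    (A : BOp Λ) : amp Y (ins1 (tm (M * L) (i * L)) A) = (A * pr Y' L ^ M).trace := by
  have hT : 0 < M * L := Nat.pos_of_ne_zero (NeZero.ne _)
  rw [amp_eq Y _ (i * L), ← pr_mul hp, Matrix.trace_mul_comm, ← pr_ins Y' A hT]
  congr 1
  refine pr_congr fun j hj => ?_
  rw [hY, per_mul hp, ins1]
  congr 1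
  exact if_congr (tm_add_inj (i * L) hj hT) rfl rfl

theorem tm_ne {i k : ℕ} (hk : 1 ≤ k) (hkM : k < M) :
    tm (M * L) (i * L) ≠ tm (M * L) ((i + k) * L) := by
  have hT : 0 < M * L := Nat.pos_of_ne_zero (NeZero.ne _)
  have hL : 0 < L := Nat.pos_of_mul_pos_left hT
  rw [Nat.add_mul]
  intro h
  have := (tm_add_inj (i * L) hT (Nat.mul_lt_mul_of_pos_right hkM hL)).1 h
  have h2 : 0 < k * L := Nat.mul_pos hk hL
  omega

theorem amp_ins2 (hY : ∀ k, Y (tm (M * L) k) = Y' k) (hp : ∀ j, Y' (L + j) = Y' j) (i : ℕ)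
    {k : ℕ} (hk : 1 ≤ k) (hkM : k < M) (A B : BOp Λ) :
    amp Y (ins2 (tm (M * L) (i * L)) B (tm (M * L) ((i + k) * L)) A) =
      (A * pr Y' L ^ k * B * pr Y' L ^ (M - k)).trace := by
  have hT : 0 < M * L := Nat.pos_of_ne_zero (NeZero.ne _)
  have hL : 0 < L := Nat.pos_of_mul_pos_left hT
  have h1 : 0 < k * L := Nat.mul_pos hk hL
  have h2 : 0 < (M - k) * L := Nat.mul_pos (by omega) hL
  have e : M * L = k * L + (M - k) * L := by rw [← Nat.add_mul]; congr 1; omega
  have hkL : k * L < M * L := Nat.mul_lt_mul_of_pos_right hkM hL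
  have hO : ∀ j < M * L, ins2 (tm (M * L) (i * L)) B (tm (M * L) ((i + k) * L)) A
      (tm (M * L) (i * L + j)) = if j = 0 then B else if j = k * L then A else 1 := fun j hj => by
    rw [ins2, Nat.add_mul]
    exact if_congr (tm_add_inj (i * L) hj hT) rfl (if_congr (tm_add_inj (i * L) hj hkL) rfl rfl)
  rw [amp_eq Y _ (i * L), pr_congr (g := fun j => Y' j *
    if j = 0 then B else if j = k * L then A else 1) fun j hj => by rw [hY, per_mul hp, hO j hj]]
  conv_lhs => rw [e]
  rw [pr_add, pr_congr (k := k * L) (g := fun j => Y' j * if j = 0 then B else 1) fun j hj => by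
      rw [if_neg (c := j = k * L) hj.ne],
    pr_congr (k := (M - k) * L) (g := fun j => Y' j * if j = 0 then A else 1) fun j _ => by
      rw [per_mul hp, if_neg (by omega)]
      congr 1
      exact if_congr (by omega) rfl rfl,
    pr_ins _ _ h1, pr_ins _ _ h2, pr_mul hp, pr_mul hp, Matrix.mul_assoc, Matrix.trace_mul_comm]
  simp only [Matrix.mul_assoc]

end peramp

end Crest.Agent.N337.KV
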