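import Crest.Agent.N337.KV.Defs

/-!
# Row 337, part KV: deterministic energy estimates (helper23)
-/

set_option autoImplicit false
set_option linter.unusedSectionVars false

namespace Crest.Agent.N337.KV

open Crest.Agent.N337.Slot Finset Matrix

variable {Λ : Type} [Fintype Λ] [DecidableEq Λ]

theorem sum_swap_sq (ψ : Λ → ℝ) (x y : Λ) :
    ∑ u, (ψ u - ψ (Equiv.swap x y u)) ^ 2 = 2 * (ψ x - ψ y) ^ 2 := by
  by_cases hxy : x = y
  · subst hxy; simp
  rw [← Finset.sum_subset (Finset.subset_univ ({x, y} : Finset Λ))]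
  · rw [Finset.sum_pair hxy, Equiv.swap_apply_left, Equiv.swap_apply_right]; ring
  · intro u _ hu
    simp only [Finset.mem_insert, Finset.mem_singleton, not_or] at hu
    rw [Equiv.swap_apply_of_ne_of_ne hu.1 hu.2]; ring

theorem step_sq (ψ : Λ → ℝ) (x y : Λ) (q : ℝ) :
    ∑ u, ((1 - q) * ψ u + q * ψ (Equiv.swap x y u)) ^ 2 =
      ∑ u, ψ u ^ 2 - 2 * q * (1 - q) * (ψ x - ψ y) ^ 2 := by
  have h1 : ∑ u, ψ (Equiv.swap x y u) ^ 2 = ∑ u, ψ u ^ 2 :=
    Equiv.sum_comp (Equiv.swap x y) fun u => ψ u ^ 2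
  have h2 := sum_swap_sq ψ x y
  have h3 : ∀ u, ((1 - q) * ψ u + q * ψ (Equiv.swap x y u)) ^ 2 =
      (1 - q) * ψ u ^ 2 + q * ψ (Equiv.swap x y u) ^ 2 -
        q * (1 - q) * (ψ u - ψ (Equiv.swap x y u)) ^ 2 := fun u => by ring
  simp only [h3, Finset.sum_sub_distrib, Finset.sum_add_distrib, ← Finset.mul_sum, h1, h2]
  ring

/-- dissipation along a sweep of small steps. -/
theorem sweep_diss (ψ : ℕ → Λ → ℝ) (x y : ℕ → Λ) (q : ℕ → ℝ) (m : ℕ)
    (hq : ∀ j < m, 0 ≤ q j ∧ q j ≤ 1)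
    (hs : ∀ j < m, ∀ u, ψ (j + 1) u = (1 - q j) * ψ j u + q j * ψ j (Equiv.swap (x j) (y j) u)) :
    ∑ u, ψ m u ^ 2 ≤ ∑ u, ψ 0 u ^ 2 - 2 * ∑ j ∈ range m, q j * (ψ 0 (x j) - ψ 0 (y j)) ^ 2 +
      16 * (∑ j ∈ range m, q j) ^ 2 * ∑ u, ψ 0 u ^ 2 := by
  set N : ℝ := Real.sqrt (∑ u, ψ 0 u ^ 2) with hN
  have hN0 : 0 ≤ N := Real.sqrt_nonneg _
  have hN2 : N ^ 2 = ∑ u, ψ 0 u ^ 2 := Real.sq_sqrt (Finset.sum_nonneg fun _ _ => sq_nonneg _)
  have hb0 : ∀ u, |ψ 0 u| ≤ N := fun u =>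
    Real.abs_le_sqrt (Finset.single_le_sum (f := fun u => ψ 0 u ^ 2) (fun _ _ => sq_nonneg _)
      (Finset.mem_univ u))
  rw [← hN2]
  suffices H : (∀ u, |ψ m u| ≤ N) ∧ (∀ u, |ψ m u - ψ 0 u| ≤ 2 * (∑ j ∈ range m, q j) * N) ∧
      0 ≤ ∑ j ∈ range m, q j ∧
      ∑ u, ψ m u ^ 2 ≤ N ^ 2 - 2 * ∑ j ∈ range m, q j * (ψ 0 (x j) - ψ 0 (y j)) ^ 2 +
        16 * (∑ j ∈ range m, q j) ^ 2 * N ^ 2 from H.2.2.2
  induction m with
  | zero => exact ⟨hb0, fun u => by simp, by simp, by simp [hN2]⟩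
  | succ m ih =>
    obtain ⟨h1, h2, h0, h3⟩ := ih (fun j hj => hq j (by omega)) (fun j hj => hs j (by omega))
    obtain ⟨hq0, hq1⟩ := hq m (by omega)
    have hm := hs m (by omega)
    set σ := ∑ j ∈ range m, q j with hσ
    refine ⟨fun u => ?_, fun u => ?_, ?_, ?_⟩
    · rw [hm]
      have a1 := abs_le.1 (h1 u)
      have a2 := abs_le.1 (h1 (Equiv.swap (x m) (y m) u))
      rw [abs_le]; constructor <;> nlinarith [a1.1, a1.2, a2.1, a2.2]
    · rw [hm, Finset.sum_range_succ, ← hσ]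
      have a1 := abs_le.1 (h1 u)
      have a2 := abs_le.1 (h1 (Equiv.swap (x m) (y m) u))
      have a3 := abs_le.1 (h2 u)
      rw [abs_le]; constructor <;> nlinarith [a1.1, a1.2, a2.1, a2.2, a3.1, a3.2]
    · rw [Finset.sum_range_succ]; positivity
    · have e : ∑ u, ψ (m + 1) u ^ 2 = ∑ u, ψ m u ^ 2 -
          2 * q m * (1 - q m) * (ψ m (x m) - ψ m (y m)) ^ 2 := by
        simp only [hm]; exact step_sq _ _ _ _
      rw [e, Finset.sum_range_succ, Finset.sum_range_succ, ← hσ]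
      set d := ψ m (x m) - ψ m (y m) with hd
      set d0 := ψ 0 (x m) - ψ 0 (y m) with hd0
      have b1 : |d| ≤ 2 * N := by
        have a1 := abs_le.1 (h1 (x m))
        have a2 := abs_le.1 (h1 (y m))
        rw [abs_le]; constructor <;> linarith [a1.1, a1.2, a2.1, a2.2]
      have b2 : |d0| ≤ 2 * N := by
        have a1 := abs_le.1 (hb0 (x m))
        have a2 := abs_le.1 (hb0 (y m))
        rw [abs_le]; constructor <;> linarith [a1.1, a1.2, a2.1, a2.2]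
      have b3 : |d - d0| ≤ 4 * σ * N := by
        have a1 := abs_le.1 (h2 (x m))
        have a2 := abs_le.1 (h2 (y m))
        rw [abs_le]; constructor <;> linarith [a1.1, a1.2, a2.1, a2.2]
      have c1 : d ^ 2 ≤ 4 * N ^ 2 := by
        have := pow_le_pow_left₀ (abs_nonneg d) b1 2
        rw [sq_abs] at this; linarith
      have c2 : d0 ^ 2 - 16 * σ * N ^ 2 ≤ d ^ 2 := by
        have e1 : d0 * (d0 - d) ≤ |d0| * |d - d0| := by
          rw [← abs_mul]
          have := neg_abs_le (d0 * (d - d0))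
          linarith
        have e2 : |d0| * |d - d0| ≤ (2 * N) * (4 * σ * N) :=
          mul_le_mul b2 b3 (abs_nonneg _) (by positivity)
        nlinarith [sq_nonneg (d - d0)]
      have c3 : q m * (d0 ^ 2 - 16 * σ * N ^ 2) ≤ q m * d ^ 2 := mul_le_mul_of_nonneg_left c2 hq0
      have c4 : q m ^ 2 * d ^ 2 ≤ q m ^ 2 * (4 * N ^ 2) :=
        mul_le_mul_of_nonneg_left c1 (sq_nonneg _)
      nlinarith [mul_nonneg (sq_nonneg (q m)) (sq_nonneg N)]

theorem kstep_mulVec (R : Finset Λ) (x y : Λ) (p : ℝ) (ψ : Λ → ℝ) (hψ : ∀ u ∈ R, ψ u = 0)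
    (u : Λ) : (kstep R x y p).mulVec ψ u =
      if u ∈ R then 0 else (1 - p) * ψ u + p * ψ (Equiv.swap x y u) := by
  unfold kstep
  simp only [Matrix.mulVec, dotProduct, Matrix.of_apply]
  split_ifs with hu
  · simp [hu]
  · have : ∀ v, (if u ∈ R ∨ v ∈ R then (0 : ℝ) else
        (1 - p) * (if u = v then 1 else 0) + p * (if u = Equiv.swap x y v then 1 else 0)) * ψ v =
        (1 - p) * (if u = v then ψ v else 0) +
          p * (if Equiv.swap x y u = v then ψ v else 0) := fun v => by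
      by_cases hv : v ∈ R
      · simp [hψ v hv]
      · have e : (u = Equiv.swap x y v) ↔ (Equiv.swap x y u = v) := by
          constructor
          · rintro rfl; simp
          · rintro rfl; simp
        simp only [hu, hv, or_self, if_false, e]
        split_ifs <;> ring
    simp only [this, Finset.sum_add_distrib, ← Finset.mul_sum, Finset.sum_ite_eq, Finset.mem_univ,
      if_true]

/-- the green step acts on functions vanishing on `R` as a Bernoulli step. -/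
theorem green_mulVec (R : Finset Λ) (x y : Λ) (p : ℝ) (ψ : Λ → ℝ) (hψ : ∀ u ∈ R, ψ u = 0) (u : Λ) :
    (if x ∉ R ∧ y ∉ R then kstep R x y p else kstep R x y 0).mulVec ψ u =
      (1 - (if x ∉ R ∧ y ∉ R then p else 0)) * ψ u +
        (if x ∉ R ∧ y ∉ R then p else 0) * ψ (Equiv.swap x y u) := by
  split_ifs with hxy
  · rw [kstep_mulVec R x y p ψ hψ]
    split_ifs with hu
    · have h1 : u ≠ x := fun e => hxy.1 (e ▸ hu)
      have h2 : u ≠ y := fun e => hxy.2 (e ▸ hu)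
      rw [Equiv.swap_apply_of_ne_of_ne h1 h2, hψ u hu]; ring
    · rfl
  · rw [kstep_mulVec R x y 0 ψ hψ]
    split_ifs with hu
    · rw [hψ u hu]; ring
    · rfl

/-- the cyclic energy inequality. -/
theorem energy_ineq {T : ℕ} [NeZero T] (F g Fm : Fin T → Λ → ℝ)
    (h : ∀ s y, F (s + 1) y = g (s + 1) y + Fm s y) :
    (1 / 2) * ∑ s, (∑ y, F s y ^ 2 - ∑ y, Fm s y ^ 2) ≤ ∑ s, ∑ y, g s y * F s y := by
  have e1 : ∑ s, ∑ y, g s y * F s y = ∑ s, ∑ y, g (s + 1) y * F (s + 1) y :=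
    (Equiv.sum_comp (Equiv.addRight (1 : Fin T)) fun s => ∑ y, g s y * F s y).symm
  have e2 : ∑ s, ∑ y, F s y ^ 2 = ∑ s, ∑ y, F (s + 1) y ^ 2 :=
    (Equiv.sum_comp (Equiv.addRight (1 : Fin T)) fun s => ∑ y, F s y ^ 2).symm
  rw [e1, Finset.sum_sub_distrib, e2, ← Finset.sum_sub_distrib, Finset.mul_sum]
  refine Finset.sum_le_sum fun s _ => ?_
  rw [← Finset.sum_sub_distrib, Finset.mul_sum]
  refine Finset.sum_le_sum fun y _ => ?_
  rw [h]
  nlinarith [sq_nonneg (g (s + 1) y)]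

/-- `2 b - κ E ≤ C / κ` when `b² ≤ C E`. -/
theorem two_mul_sub_le {b C E κ : ℝ} (hκ : 0 < κ) (hC : 0 ≤ C) (hE : 0 ≤ E) (h : b ^ 2 ≤ C * E) :
    2 * b - κ * E ≤ C / κ := by
  have h1 : (2 * b) ^ 2 ≤ (κ * E + C / κ) ^ 2 := by
    have : κ * E * (C / κ) = C * E := by field_simp
    nlinarith [sq_nonneg (κ * E - C / κ)]
  have h2 := abs_le_of_sq_le_sq' h1 (by positivity)
  linarith [h2.2]

section slots
variable {X : Type} [Fintype X] [DecidableEq X] {n : ℕ}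

/-- slot average. -/
noncomputable def avg (ψ : X × Fin n → ℝ) (x : X) : ℝ := (∑ i, ψ (x, i)) / n

theorem avg_nonneg {ψ : X × Fin n → ℝ} (h : ∀ u, 0 ≤ ψ u) (x : X) : 0 ≤ avg ψ x :=
  div_nonneg (Finset.sum_nonneg fun _ _ => h _) (Nat.cast_nonneg _)

theorem sum_eq_avg (hn : 1 ≤ n) (ψ : X × Fin n → ℝ) (x : X) : ∑ i, ψ (x, i) = n * avg ψ x := by
  have : (n : ℝ) ≠ 0 := by positivity
  rw [avg]; field_simp

theorem mass_ge (hn : 1 ≤ n) (ψ : X × Fin n → ℝ) (S : Finset X) :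
    n * ∑ x ∈ S, avg ψ x ^ 2 ≤ ∑ u, ψ u ^ 2 := by
  have hn' : (0 : ℝ) < n := by positivity
  rw [Fintype.sum_prod_type, Finset.mul_sum]
  refine le_trans (Finset.sum_le_sum fun x _ => ?_)
    (Finset.sum_le_sum_of_subset_of_nonneg (Finset.subset_univ S)
      fun x _ _ => Finset.sum_nonneg fun _ _ => sq_nonneg _)
  have h := sq_sum_le_card_mul_sum_sq (s := (Finset.univ : Finset (Fin n))) (f := fun i => ψ (x, i))
  rw [sum_eq_avg hn, Finset.card_univ, Fintype.card_fin] at h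
  have : (n : ℝ) * (n * avg ψ x ^ 2) ≤ n * ∑ i, ψ (x, i) ^ 2 := by nlinarith
  exact le_of_mul_le_mul_left this hn'

theorem dir_ge (hn : 1 ≤ n) {J : X → X → ℝ} (hJ : ∀ x y, 0 ≤ J x y) (ψ : X × Fin n → ℝ)
    (R : Finset (X × Fin n)) :
    n * (Crest.MathPhysics.SpinModel.spinVal n * dir J (R.image Prod.fst) (avg ψ)) ≤
      ∑ q : (X × Fin n) × (X × Fin n),
        (if q.1 ∉ R ∧ q.2 ∉ R then J q.1.1 q.2.1 / 2 / 2 else 0) * (ψ q.1 - ψ q.2) ^ 2 := by
  have hn' : (0 : ℝ) < n := by positivity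
  have key : ∀ x y : X, (n : ℝ) ^ 2 * (avg ψ x - avg ψ y) ^ 2 ≤
      ∑ i : Fin n, ∑ j : Fin n, (ψ (x, i) - ψ (y, j)) ^ 2 := fun x y => by
    have h := sq_sum_le_card_mul_sum_sq (s := (Finset.univ : Finset (Fin n × Fin n)))
      (f := fun q => ψ (x, q.1) - ψ (y, q.2))
    have e : ∑ q : Fin n × Fin n, (ψ (x, q.1) - ψ (y, q.2)) =
        (n : ℝ) ^ 2 * (avg ψ x - avg ψ y) := by
      rw [Fintype.sum_prod_type]
      simp only [Finset.sum_sub_distrib, Finset.sum_const, Finset.card_univ, Fintype.card_fin,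
        nsmul_eq_mul, ← Finset.mul_sum, sum_eq_avg hn]
      ring
    rw [e, Finset.card_univ, Fintype.card_prod, Fintype.card_fin, Fintype.sum_prod_type] at h
    push_cast at h
    have h2 : (0 : ℝ) < (n : ℝ) ^ 2 := by positivity
    refine le_of_mul_le_mul_left ?_ h2
    nlinarith
  set S := (R.image Prod.fst)ᶜ with hS
  have hmem : ∀ x ∈ S, ∀ i, (x, i) ∉ R := fun x hx i hi =>
    (Finset.mem_compl.1 hx) (Finset.mem_image.2 ⟨_, hi, rfl⟩)
  have e2 : ∑ q : (X × Fin n) × (X × Fin n),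
        (if q.1 ∉ R ∧ q.2 ∉ R then J q.1.1 q.2.1 / 2 / 2 else 0) * (ψ q.1 - ψ q.2) ^ 2 =
      ∑ x, ∑ y, ∑ i : Fin n, ∑ j : Fin n,
        (if (x, i) ∉ R ∧ (y, j) ∉ R then J x y / 2 / 2 else 0) * (ψ (x, i) - ψ (y, j)) ^ 2 := by
    rw [Fintype.sum_prod_type, Fintype.sum_prod_type]
    refine Finset.sum_congr rfl fun x _ => ?_
    simp only [Fintype.sum_prod_type]
    exact Finset.sum_comm
  have hnn : ∀ x y, 0 ≤ ∑ i : Fin n, ∑ j : Fin n,
      (if (x, i) ∉ R ∧ (y, j) ∉ R then J x y / 2 / 2 else 0) * (ψ (x, i) - ψ (y, j)) ^ 2 :=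
    fun x y => Finset.sum_nonneg fun i _ => Finset.sum_nonneg fun j _ => by
      have := hJ x y
      split_ifs <;> positivity
  rw [e2]
  calc _ = ∑ x ∈ S, ∑ y ∈ S, J x y / 2 / 2 * ((n : ℝ) ^ 2 * (avg ψ x - avg ψ y) ^ 2) := by
        simp only [dir, Crest.MathPhysics.SpinModel.spinVal, Finset.mul_sum, ← hS]
        refine Finset.sum_congr rfl fun x _ => Finset.sum_congr rfl fun y _ => by ring
    _ ≤ ∑ x ∈ S, ∑ y ∈ S, ∑ i : Fin n, ∑ j : Fin n,
        (if (x, i) ∉ R ∧ (y, j) ∉ R then J x y / 2 / 2 else 0) * (ψ (x, i) - ψ (y, j)) ^ 2 := by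
        refine Finset.sum_le_sum fun x hx => Finset.sum_le_sum fun y hy => ?_
        have := hJ x y
        refine (mul_le_mul_of_nonneg_left (key x y) (by positivity)).trans (le_of_eq ?_)
        simp only [Finset.mul_sum]
        refine Finset.sum_congr rfl fun i _ => Finset.sum_congr rfl fun j _ => ?_
        rw [if_pos ⟨hmem x hx i, hmem y hy j⟩]
    _ ≤ _ := by
        refine le_trans (Finset.sum_le_sum fun x _ =>
          Finset.sum_le_sum_of_subset_of_nonneg (Finset.subset_univ S) fun y _ _ => hnn x y) ?_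
        exact Finset.sum_le_sum_of_subset_of_nonneg (Finset.subset_univ S)
          fun x _ _ => Finset.sum_nonneg fun y _ => hnn x y

end slots

end Crest.Agent.N337.KV
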