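import Crest.Agent.N337.KV.Defs

/-! # Row 337, KV-Cor: consequences of the Gaussian domination `LYStmt` for exact words -/

set_option autoImplicit false

namespace Crest.Agent.N337.KV

open Crest.Agent.N337.Slot

variable {Λ : Type} [Fintype Λ] [DecidableEq Λ]

/-- entrywise non-negative -/
def NN (A : BOp Λ) : Prop := ∀ i j, 0 ≤ A i j
/-- entrywise comparison -/
def LeE (A B : BOp Λ) : Prop := ∀ i j, A i j ≤ B i j

theorem NN.mul {A B : BOp Λ} (hA : NN A) (hB : NN B) : NN (A * B) := fun i j => by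
  rw [Matrix.mul_apply]; exact Finset.sum_nonneg fun k _ => mul_nonneg (hA i k) (hB k j)
theorem NN.trace {A : BOp Λ} (hA : NN A) : 0 ≤ A.trace := Finset.sum_nonneg fun i _ => hA i i
omit [Fintype Λ] [DecidableEq Λ] in
theorem NN.smul {A : BOp Λ} (hA : NN A) {c : ℝ} (hc : 0 ≤ c) : NN (c • A) :=
  fun i j => mul_nonneg hc (hA i j)
omit [Fintype Λ] [DecidableEq Λ] in
theorem NN.add {A B : BOp Λ} (hA : NN A) (hB : NN B) : NN (A + B) :=
  fun i j => add_nonneg (hA i j) (hB i j)
theorem nn_one : NN (1 : BOp Λ) := fun i j => by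
  rw [Matrix.one_apply]; split_ifs <;> norm_num
omit [Fintype Λ] [DecidableEq Λ] in
theorem LeE.rfl {A : BOp Λ} : LeE A A := fun _ _ => le_rfl
theorem LeE.mul_right {A A' B : BOp Λ} (h : LeE A A') (hB : NN B) : LeE (A * B) (A' * B) :=
  fun i j => by
    rw [Matrix.mul_apply, Matrix.mul_apply]
    exact Finset.sum_le_sum fun k _ => mul_le_mul_of_nonneg_right (h i k) (hB k j)
theorem LeE.mul_left {A B B' : BOp Λ} (h : LeE B B') (hA : NN A) : LeE (A * B) (A * B') :=
  fun i j => by
    rw [Matrix.mul_apply, Matrix.mul_apply]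
    exact Finset.sum_le_sum fun k _ => mul_le_mul_of_nonneg_left (h k j) (hA i k)
omit [Fintype Λ] [DecidableEq Λ] in
theorem LeE.trans {A B C : BOp Λ} (h : LeE A B) (h' : LeE B C) : LeE A C :=
  fun i j => (h i j).trans (h' i j)
theorem LeE.trace {A B : BOp Λ} (h : LeE A B) : A.trace ≤ B.trace :=
  Finset.sum_le_sum fun i _ => h i i

omit [DecidableEq Λ] in
theorem nn_tens {A : Λ → Bool → Bool → ℝ} (h : ∀ x i j, 0 ≤ A x i j) : NN (tens A) :=
  fun _ _ => Finset.prod_nonneg fun x _ => h x _ _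
omit [DecidableEq Λ] in
theorem tens_le {A B : Λ → Bool → Bool → ℝ} (h0 : ∀ x i j, 0 ≤ A x i j)
    (h : ∀ x i j, A x i j ≤ B x i j) : LeE (tens A) (tens B) :=
  fun _ _ => Finset.prod_le_prod (fun x _ => h0 x _ _) fun x _ => h x _ _
theorem tens_mul_tens (A B : Λ → Bool → Bool → ℝ) :
    tens A * tens B = tens fun x i j => A x i true * B x true j + A x i false * B x false j := by
  ext σ τ
  simp only [tens, Matrix.mul_apply, Matrix.of_apply, ← Finset.prod_mul_distrib]
  rw [← Fintype.piFinset_univ, ← Finset.prod_univ_sum (fun _ => Finset.univ)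
    fun x k => A x (σ x) k * B x k (τ x)]
  simp

theorem adm_nonneg {W : BOp Λ} (h : W ∈ Adm Λ) : NN W := by
  induction h using Submonoid.closure_induction with
  | mem M h =>
    rcases h with ⟨x, y, p, h0, h1, rfl⟩ | ⟨ζ, hζ, rfl⟩
    · refine (nn_one.smul (sub_nonneg.2 h1)).add (NN.smul (fun i j => ?_) h0)
      simp only [swp, Matrix.of_apply]; split_ifs <;> norm_num
    · intro i j
      rw [fug, Matrix.diagonal_apply]; split_ifs <;> positivity
  | one => exact nn_one
  | mul A B _ _ hA hB => exact hA.mul hB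

theorem nn_cr (x : Λ) : NN (cr x) := nn_tens fun y i j => by split_ifs <;> norm_num
theorem nn_an (x : Λ) : NN (an x) := nn_tens fun y i j => by split_ifs <;> norm_num
omit [DecidableEq Λ] in
theorem nn_Ecr {a : Λ → ℝ} (ha : ∀ x, 0 ≤ a x) : NN (Ecr a) :=
  nn_tens fun y i j => by have := ha y; split_ifs <;> positivity
omit [DecidableEq Λ] in
theorem nn_Ean {a : Λ → ℝ} (ha : ∀ x, 0 ≤ a x) : NN (Ean a) :=
  nn_tens fun y i j => by have := ha y; split_ifs <;> positivity
theorem nn_crF {a : Λ → ℝ} (ha : ∀ x, 0 ≤ a x) : NN (crF a) := fun i j => by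
  rw [crF, Matrix.sum_apply]; exact Finset.sum_nonneg fun x _ => (nn_cr x).smul (ha x) i j
theorem nn_anF {a : Λ → ℝ} (ha : ∀ x, 0 ≤ a x) : NN (anF a) := fun i j => by
  rw [anF, Matrix.sum_apply]; exact Finset.sum_nonneg fun x _ => (nn_an x).smul (ha x) i j
theorem nn_nb (A : Finset Λ) : NN (nb A) := fun i j => by
  rw [nb, Matrix.diagonal_apply]; split_ifs <;> norm_num

theorem tens_one : tens (fun (_ : Λ) i j => if i = j then (1 : ℝ) else 0) = 1 := by
  ext σ τ
  simp only [tens, Matrix.of_apply, Matrix.one_apply, Finset.prod_boole, Finset.mem_univ,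
    forall_true_left, funext_iff]
theorem Ecr_zero : Ecr (fun _ : Λ => (0 : ℝ)) = 1 := by rw [← tens_one, Ecr]; simp
theorem Ean_zero : Ean (fun _ : Λ => (0 : ℝ)) = 1 := by rw [← tens_one, Ean]; simp
theorem crF_zero : crF (fun _ : Λ => (0 : ℝ)) = 0 := by simp [crF]
theorem anF_zero : anF (fun _ : Λ => (0 : ℝ)) = 0 := by simp [anF]
theorem crF_mul (c : ℝ) (b : Λ → ℝ) : crF (fun x => c * b x) = c • crF b := by
  simp [crF, Finset.smul_sum, mul_smul]
theorem anF_mul (c : ℝ) (b : Λ → ℝ) : anF (fun x => c * b x) = c • anF b := by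
  simp [anF, Finset.smul_sum, mul_smul]

/-- first order term of a product of one-slot flips -/
theorem sum_flip_le (P Q : Bool → Bool → Prop) [∀ i j, Decidable (P i j)]
    [∀ i j, Decidable (Q i j)] (hP : ∀ i j, P i j → i ≠ j ∧ Q i j) {a : Λ → ℝ} (ha : ∀ x, 0 ≤ a x) :
    LeE (∑ x, a x • tens fun y i j =>
      if y = x then (if P i j then (1 : ℝ) else 0) else (if i = j then 1 else 0))
      (tens fun x i j => if i = j then 1 else if Q i j then a x else 0) := by
  intro σ τ
  rw [Matrix.sum_apply]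
  have h0 : ∀ y, 0 ≤ (if σ y = τ y then 1 else if Q (σ y) (τ y) then a y else 0) := fun y => by
    have := ha y; split_ifs <;> positivity
  by_cases h : ∃ x, P (σ x) (τ x)
  · obtain ⟨x, hx⟩ := h
    rw [Finset.sum_eq_single x (fun z _ hz => ?_) (by simp)]
    · simp only [tens, Matrix.smul_apply, Matrix.of_apply, smul_eq_mul]
      rw [← Finset.mul_prod_erase _ _ (Finset.mem_univ x),
        ← Finset.mul_prod_erase _ _ (Finset.mem_univ x), if_pos rfl, if_pos hx,
        if_neg (hP _ _ hx).1, if_pos (hP _ _ hx).2, one_mul]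
      refine mul_le_mul_of_nonneg_left (Finset.prod_le_prod (fun y _ => ?_) fun y hy => ?_) (ha x)
      · split_ifs <;> norm_num
      · rw [if_neg (Finset.ne_of_mem_erase hy)]
        have := h0 y
        split_ifs at this ⊢ <;> simp [*]
    · simp only [tens, Matrix.smul_apply, Matrix.of_apply, smul_eq_mul]
      rw [Finset.prod_eq_zero (Finset.mem_univ x) (by rw [if_neg hz.symm, if_neg (hP _ _ hx).1]),
        mul_zero]
  · rw [Finset.sum_eq_zero fun x _ => ?_]
    · exact Finset.prod_nonneg fun y _ => h0 y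
    · simp only [tens, Matrix.smul_apply, Matrix.of_apply, smul_eq_mul]
      rw [Finset.prod_eq_zero (Finset.mem_univ x) (by rw [if_pos rfl, if_neg fun h' => h ⟨x, h'⟩]),
        mul_zero]
theorem crF_le {a : Λ → ℝ} (ha : ∀ x, 0 ≤ a x) : LeE (crF a) (Ecr a) :=
  sum_flip_le (fun i j => i = true ∧ j = false) (fun i _ => i = true) (by decide) ha
theorem anF_le {a : Λ → ℝ} (ha : ∀ x, 0 ≤ a x) : LeE (anF a) (Ean a) :=
  sum_flip_le (fun i j => i = false ∧ j = true) (fun _ j => j = true) (by decide) ha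

theorem pow_smul_nb (α : ℝ) (A : Finset Λ) : α ^ A.card • nb A =
    tens fun x i j => if i = j then (if x ∈ A then (if i = true then α else 0) else 1) else 0 := by
  ext σ τ
  simp only [tens, nb, Matrix.smul_apply, Matrix.of_apply, Matrix.diagonal_apply, smul_eq_mul]
  by_cases h : σ = τ
  · subst h
    simp only [if_true, Finset.prod_ite_mem, Finset.univ_inter]
    split_ifs with h
    · rw [mul_one, ← Finset.prod_const]
      exact Finset.prod_congr rfl fun x hx => by rw [if_pos (h x hx)]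
    · push Not at h
      obtain ⟨x, hx, h⟩ := h
      rw [mul_zero, Finset.prod_eq_zero hx (if_neg h)]
  · obtain ⟨x, hx⟩ := Function.ne_iff.1 h
    rw [if_neg h, mul_zero, Finset.prod_eq_zero (Finset.mem_univ x) (if_neg hx)]

section
variable {A : Finset Λ} {b : Λ → ℝ} (hb : ∀ u, 0 ≤ b u) (hA : ∀ u ∈ A, 1 ≤ b u) {α : ℝ}
  (hα : 0 < α)
include hb hA hα

theorem nb_le : LeE (α ^ A.card • nb A) (Ecr (fun x => α * b x) * Ean b) := by
  rw [pow_smul_nb, Ecr, Ean, tens_mul_tens]
  refine tens_le (fun y i j => by split_ifs <;> positivity) fun y i j => ?_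
  have h0 := hb y
  by_cases hy : y ∈ A
  · have h1 := hA y hy
    cases i <;> cases j <;> simp [hy] <;> first | positivity | nlinarith [mul_le_mul h1 h1 zero_le_one h0]
  · cases i <;> cases j <;> simp [hy] <;> positivity
theorem cr_nb_le {x : Λ} (hx : 1 ≤ b x) :
    LeE (α ^ A.card • (cr x * nb A)) (Ecr b * Ean fun x => α * b x) := by
  rw [← Matrix.mul_smul, pow_smul_nb, Ecr, Ean, cr, tens_mul_tens, tens_mul_tens]
  refine tens_le (fun y i j => by split_ifs <;> positivity) fun y i j => ?_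
  have h0 := hb y
  by_cases hyx : y = x
  · subst hyx
    by_cases hy : y ∈ A <;> cases i <;> cases j <;> simp [hy, hx] <;> positivity
  by_cases hy : y ∈ A
  · have h1 := hA y hy
    cases i <;> cases j <;> simp [hy, hyx] <;>
      first | positivity | nlinarith [mul_le_mul h1 h1 zero_le_one h0]
  · cases i <;> cases j <;> simp [hy, hyx] <;> positivity
theorem nb_an_le {x : Λ} (hx : 1 ≤ b x) :
    LeE (α ^ A.card • (nb A * an x)) (Ecr (fun x => α * b x) * Ean b) := by
  rw [← Matrix.smul_mul, pow_smul_nb, Ecr, Ean, an, tens_mul_tens, tens_mul_tens]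
  refine tens_le (fun y i j => by split_ifs <;> positivity) fun y i j => ?_
  have h0 := hb y
  by_cases hyx : y = x
  · subst hyx
    by_cases hy : y ∈ A <;> cases i <;> cases j <;> simp [hy, hx] <;> positivity
  by_cases hy : y ∈ A
  · have h1 := hA y hy
    cases i <;> cases j <;> simp [hy, hyx] <;>
      first | positivity | nlinarith [mul_le_mul h1 h1 zero_le_one h0]
  · cases i <;> cases j <;> simp [hy, hyx] <;> positivity
end

/-- optimisation of an exponential moment bound -/
theorem le_of_exp {x Z q : ℝ} {m : ℕ} (hm : 1 ≤ m) (hq : 0 ≤ q)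
    (h : ∀ a, 0 < a → a ^ m * x ≤ Z * Real.exp (a * q)) : x ≤ Z * (Real.exp 1 * q / m) ^ m := by
  have hm' : (0 : ℝ) < m := by exact_mod_cast hm
  rcases hq.eq_or_lt with rfl | hq
  · rw [mul_zero, zero_div, zero_pow (by omega), mul_zero]
    by_contra hx
    push Not at hx
    have h1 := h (max 1 (Z / x + 1)) (lt_max_of_lt_left one_pos)
    have h2 : Z / x + 1 ≤ max 1 (Z / x + 1) ^ m :=
      (le_max_right _ _).trans (le_self_pow₀ (le_max_left _ _) (by omega))
    have h3 := mul_le_mul_of_nonneg_right h2 hx.le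
    rw [add_mul, div_mul_cancel₀ _ hx.ne'] at h3
    rw [mul_zero, Real.exp_zero] at h1
    linarith
  · have h1 := h (m / q) (by positivity)
    rw [div_mul_cancel₀ _ hq.ne', ← le_div_iff₀' (by positivity)] at h1
    refine h1.trans_eq ?_
    rw [mul_div_assoc (Real.exp 1), mul_pow, ← Real.exp_nat_mul, mul_one, div_eq_mul_inv,
      ← inv_pow, inv_div, mul_assoc]

theorem le_of_exp₂ {x Z q t : ℝ} {m : ℕ} (hm : 1 ≤ m) (hq : 0 ≤ q) (ht : 0 ≤ t) (hZ : 0 < Z)
    (h : ∀ a g, 0 < a → 0 < g → a ^ m * (g * x) ≤ Z * Real.exp ((a * q + g * t) / Z)) :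
    x ≤ Real.exp 1 * (Real.exp 1 * (q / Z) / m) ^ m * t := by
  have := le_of_exp (x := x) (Z := Z * (Real.exp 1 * (q / Z) / m) ^ m) (q := t / Z) le_rfl
    (by positivity) fun g hg => by
      have := le_of_exp (x := g * x) (Z := Z * Real.exp (g * (t / Z))) (q := q / Z) hm
        (by positivity) fun a ha => (h a g ha hg).trans_eq (by
          rw [mul_assoc, ← Real.exp_add]; congr 2; ring)
      rw [pow_one]; exact this.trans_eq (by ring)
  refine this.trans_eq ?_
  field_simp
  simp

/-- **(Cor)** -/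
theorem cor (hLY : LYStmt) : CorStmt := by
  intro Λ _ _ W1 W2 h1 h2 hZ A b hne hb hA Z
  have n1 := adm_nonneg h1
  have n2 := adm_nonneg h2
  have hm : 1 ≤ A.card := hne.card_pos
  have LY := hLY Λ W1 W2 (subset_closure h1) (subset_closure h2) hZ
  have hz : ∀ x : Λ, (0 : ℝ) ≤ (fun _ : Λ => (0 : ℝ)) x := fun _ => le_rfl
  have hbb := (nn_crF hb).mul (nn_anF hb)
  refine ⟨le_of_exp hm (div_nonneg (hbb.mul (n1.mul n2)).trace hZ.le) fun α hα => ?_,
    fun c x hc hx => ⟨le_of_exp₂ hm (hbb.mul (n2.mul n1)).trace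
      ((((nn_anF hc).mul n1).mul (nn_crF hb)).mul n2).trace hZ fun α γ hα hγ => ?_,
      le_of_exp₂ hm (hbb.mul (n1.mul n2)).trace
      ((((nn_anF hb).mul n1).mul (nn_crF hc)).mul n2).trace hZ fun α γ hα hγ => ?_⟩⟩
  · have := LY _ _ _ b hz hz (fun x => mul_nonneg hα.le (hb x)) hb
    rw [Ecr_zero, Ean_zero, crF_zero, anF_zero, crF_mul] at this
    have h3 := ((nb_le hb hA hα).mul_right (n1.mul n2)).trace
    simp only [Matrix.smul_mul, Matrix.trace_smul, smul_eq_mul, mul_one, mul_zero, zero_mul,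
      Matrix.trace_zero, zero_add, add_zero, mul_assoc] at this h3 ⊢
    rw [← mul_div_assoc]
    exact h3.trans this
  · have hαb : ∀ x, 0 ≤ α * b x := fun x => mul_nonneg hα.le (hb x)
    have hγc : ∀ x, 0 ≤ γ * c x := fun x => mul_nonneg hγ.le (hc x)
    have := LY b _ _ _ hb hαb hz hγc
    have h3 := (((((anF_le hγc).mul_right n1).mul_right (((nn_cr x).mul (nn_nb A)).smul
      (pow_pos hα A.card).le)).trans ((cr_nb_le hb hA hα hx).mul_left
        ((nn_Ean hγc).mul n1))).mul_right n2).trace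
    rw [Ecr_zero, crF_zero, anF_mul, anF_mul, Matrix.trace_mul_cycle W1 (crF b * _),
      Matrix.trace_mul_cycle W2 W1] at this
    rw [anF_mul] at h3
    have e : (crF b * α • anF b * W2 * W1).trace = α * (crF b * anF b * (W2 * W1)).trace := by
      simp [mul_assoc]
    rw [e] at this
    simp only [Matrix.smul_mul, Matrix.mul_smul, Matrix.trace_smul, smul_eq_mul, one_mul, zero_mul,
      Matrix.trace_zero, add_zero] at this h3 ⊢
    exact h3.trans this
  · have hαb : ∀ x, 0 ≤ α * b x := fun x => mul_nonneg hα.le (hb x)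
    have hγc : ∀ x, 0 ≤ γ * c x := fun x => mul_nonneg hγ.le (hc x)
    have := LY _ _ _ b hγc hz hαb hb
    have h3 := (((((nb_an_le hb hA hα hx).mul_right n1).mul_right (nn_crF hγc)).trans
      ((crF_le hγc).mul_left (((nn_Ecr hαb).mul (nn_Ean hb)).mul n1))).mul_right n2).trace
    rw [Ean_zero, anF_zero, crF_mul, crF_mul] at this
    rw [crF_mul] at h3
    simp only [Matrix.smul_mul, Matrix.mul_smul, Matrix.trace_smul, smul_eq_mul, mul_one, zero_mul,
      mul_zero, smul_zero, Matrix.trace_zero, add_zero, zero_add, mul_assoc] at this h3 ⊢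
    rw [add_comm (α * _), mul_left_comm]
    exact h3.trans this

end Crest.Agent.N337.KV
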