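import Crest.Agent.N337.KV.Omega

/-!
# Row 337, part KV: averaging over the environment at macro times (helper23)
-/

set_option autoImplicit false
set_option linter.unusedSectionVars false

namespace Crest.Agent.N337.KV

open Crest.MathPhysics.SpinModel Crest.Agent.N337.Slot Finset Matrix

variable {X : Type} [Fintype X] [DecidableEq X] {n : ℕ}

/-- one slot chosen above every site of `B`. -/
def sl (B : Finset X) (φ : B → Fin n) : Finset (X × Fin n) :=
  Finset.univ.map ⟨fun y : B => (y.1, φ y), fun _ _ h => Subtype.ext (Prod.ext_iff.1 h).1⟩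

theorem card_sl (B : Finset X) (φ : B → Fin n) : (sl B φ).card = B.card := by simp [sl]

theorem mem_of_mem_sl {B : Finset X} {φ : B → Fin n} {u : X × Fin n} (h : u ∈ sl B φ) : u.1 ∈ B := by
  obtain ⟨y, -, rfl⟩ := Finset.mem_map.1 h
  exact y.2

theorem exists_sl {B : Finset X} {R : Finset (X × Fin n)} (h : B ⊆ R.image Prod.fst) :
    ∃ φ : B → Fin n, sl B φ ⊆ R := by
  have : ∀ y : B, ∃ j : Fin n, (y.1, j) ∈ R := fun y => by
    obtain ⟨u, hu, e⟩ := Finset.mem_image.1 (h y.2)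
    exact ⟨u.2, by rw [← e]; exact hu⟩
  choose φ hφ using this
  refine ⟨φ, fun u hu => ?_⟩
  obtain ⟨y, -, rfl⟩ := Finset.mem_map.1 hu
  exact hφ y

theorem avg_le {Ω : Type} [Fintype Ω] {ν : Ω → ℝ} (hν : ∀ ω, 0 ≤ ν ω) {f g : Ω → ℝ}
    (h : ∀ ω, 0 < ν ω → f ω ≤ g ω) : ∑ ω, ν ω * f ω ≤ ∑ ω, ν ω * g ω :=
  Finset.sum_le_sum fun ω _ => by
    rcases (hν ω).eq_or_lt with h0 | h0
    · rw [← h0, zero_mul, zero_mul]
    · exact mul_le_mul_of_nonneg_left (h ω h0) h0.le

theorem avg_choice {Ω : Type} [Fintype Ω] {ν : Ω → ℝ} (hν : ∀ ω, 0 ≤ ν ω)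
    (Rt : Ω → Finset (X × Fin n)) (t : Ω → ℝ) (ht : ∀ ω, 0 < ν ω → 0 ≤ t ω) (B : Finset X) (b : ℝ)
    (hb : ∀ φ : B → Fin n, ∑ ω, ν ω * (if sl B φ ⊆ Rt ω then t ω else 0) ≤ b) :
    ∑ ω, ν ω * (if B ⊆ (Rt ω).image Prod.fst then t ω else 0) ≤ (n : ℝ) ^ B.card * b := by
  calc _ ≤ ∑ ω, ν ω * ∑ φ : B → Fin n, (if sl B φ ⊆ Rt ω then t ω else 0) := by
        refine avg_le hν fun ω hω => ?_
        have h0 : ∀ φ : B → Fin n, 0 ≤ (if sl B φ ⊆ Rt ω then t ω else 0) := fun φ => by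
          split_ifs
          · exact ht ω hω
          · exact le_rfl
        split_ifs with hB
        · obtain ⟨φ, hφ⟩ := exists_sl hB
          refine le_trans ?_ (Finset.single_le_sum (fun φ _ => h0 φ) (Finset.mem_univ φ))
          rw [if_pos hφ]
        · exact Finset.sum_nonneg fun φ _ => h0 φ
    _ = ∑ φ : B → Fin n, ∑ ω, ν ω * (if sl B φ ⊆ Rt ω then t ω else 0) := by
        simp only [Finset.mul_sum]; exact Finset.sum_comm
    _ ≤ ∑ _φ : B → Fin n, b := Finset.sum_le_sum fun φ _ => hb φ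
    _ = _ := by simp

theorem avg_bad {Ω : Type} [Fintype Ω] {ν : Ω → ℝ} (hν : ∀ ω, 0 ≤ ν ω)
    (Rt : Ω → Finset (X × Fin n)) (t : Ω → ℝ) (ht : ∀ ω, 0 < ν ω → 0 ≤ t ω)
    (Good : Finset X → Finset X) (𝒲 : X → Finset (Finset X))
    (hW : ∀ S x, x ∉ Good S → ∃ B ∈ 𝒲 x, B ⊆ S) (x : X) (b : Finset X → ℝ)
    (hb : ∀ B ∈ 𝒲 x, ∀ φ : B → Fin n, ∑ ω, ν ω * (if sl B φ ⊆ Rt ω then t ω else 0) ≤ b B) :
    ∑ ω, ν ω * (if x ∉ Good ((Rt ω).image Prod.fst) then t ω else 0) ≤
      ∑ B ∈ 𝒲 x, (n : ℝ) ^ B.card * b B := by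
  calc _ ≤ ∑ ω, ν ω * ∑ B ∈ 𝒲 x, (if B ⊆ (Rt ω).image Prod.fst then t ω else 0) := by
        refine avg_le hν fun ω hω => ?_
        have h0 : ∀ B : Finset X, 0 ≤ (if B ⊆ (Rt ω).image Prod.fst then t ω else 0) := fun B => by
          split_ifs
          · exact ht ω hω
          · exact le_rfl
        split_ifs with hx
        · exact Finset.sum_nonneg fun B _ => h0 B
        · obtain ⟨B, hB, hBS⟩ := hW _ x hx
          refine le_trans ?_ (Finset.single_le_sum (fun B _ => h0 B) hB)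
          rw [if_pos hBS]
    _ = ∑ B ∈ 𝒲 x, ∑ ω, ν ω * (if B ⊆ (Rt ω).image Prod.fst then t ω else 0) := by
        simp only [Finset.mul_sum]; exact Finset.sum_comm
    _ ≤ _ := Finset.sum_le_sum fun B hB => avg_choice hν Rt t ht B _ (hb B hB)

/-- site-constant creation operator. -/
def cF (n : ℕ) (a : X → ℝ) : BOp (X × Fin n) := crF fun u => a u.1
/-- site-constant annihilation operator. -/
def aF (n : ℕ) (a : X → ℝ) : BOp (X × Fin n) := anF fun u => a u.1

/-- finite-`M` rarity weight. -/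
noncomputable def rarM (n : ℕ) (W : BOp (X × Fin n)) (B : Finset X) (m : ℕ) : ℝ :=
  (2 * n * Real.exp 1 * ((cF n (ind B) * aF n (ind B) * W).trace / W.trace) / m) ^ m

theorem ind_nonneg (B : Finset X) (x : X) : 0 ≤ ind B x := by
  unfold ind; split_ifs <;> norm_num

theorem one_le_ind {B : Finset X} {x : X} (h : x ∈ B) : 1 ≤ ind B x := by simp [ind, h]

theorem rar_eq (q : ℝ) (m : ℕ) : (n : ℝ) ^ m * (2 ^ m * (Real.exp 1 * q / m) ^ m) =
    (2 * n * Real.exp 1 * q / m) ^ m := by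
  rw [← mul_pow, ← mul_pow]; congr 1; ring

theorem trace_aF (a : X → ℝ) (A B C : BOp (X × Fin n)) :
    (aF n a * A * B * C).trace = ∑ v : X × Fin n, a v.1 * (an v * A * B * C).trace := by
  simp only [aF, anF, Finset.sum_mul, Matrix.trace_sum, Matrix.smul_mul, Matrix.trace_smul,
    smul_eq_mul]

theorem trace_cF (a : X → ℝ) (A B C : BOp (X × Fin n)) :
    (A * B * cF n a * C).trace = ∑ u : X × Fin n, a u.1 * (A * B * cr u * C).trace := by
  simp only [cF, crF, Finset.sum_mul, Finset.mul_sum, Matrix.trace_sum, Matrix.smul_mul,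
    Matrix.mul_smul, Matrix.trace_smul, smul_eq_mul]

theorem bad_src (hcor : CorStmt) (W1 W2 : BOp (X × Fin n)) (h1 : W1 ∈ Adm (X × Fin n))
    (h2 : W2 ∈ Adm (X × Fin n)) (hZ : 0 < (W1 * W2).trace) (hcomm : W2 * W1 = W1 * W2)
    {Ω : Type} [Fintype Ω] (ν : Ω → ℝ) (hν : ∀ ω, 0 ≤ ν ω)
    (R : Ω → Finset (X × Fin n)) (G : Ω → X × Fin n → X × Fin n → ℝ)
    (hG : ∀ ω, 0 < ν ω → ∀ v u, 0 ≤ G ω v u)
    (hb : ∀ u v (A : Finset (X × Fin n)), ∑ ω, ν ω * (if A ⊆ R ω then G ω v u else 0) ≤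
        2 ^ A.card * (an v * W1 * (cr u * nb A) * W2).trace)
    (a : X → ℝ) (ha : ∀ x, 0 ≤ a x) (𝒲 : X → Finset (Finset X))
    (hW0 : ∀ x, ∅ ∉ 𝒲 x) (Good : Finset X → Finset X)
    (hW : ∀ S x, x ∉ Good S → ∃ B ∈ 𝒲 x, B ⊆ S) :
    ∑ ω, ν ω * ∑ u : X × Fin n, ∑ v : X × Fin n,
      (if u.1 ∉ Good ((R ω).image Prod.fst) then a u.1 * a v.1 * G ω v u else 0) ≤
      n * Real.exp 1 * ∑ x, a x * ∑ B ∈ 𝒲 x, rarM n (W1 * W2) (insert x B) B.card *
        (aF n a * W1 * cF n (ind (insert x B)) * W2).trace := by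
  have key : ∀ u : X × Fin n, ∑ ω, ν ω *
      (if u.1 ∉ Good ((R ω).image Prod.fst) then ∑ v : X × Fin n, a v.1 * G ω v u else 0) ≤
      Real.exp 1 * ∑ B ∈ 𝒲 u.1, rarM n (W1 * W2) (insert u.1 B) B.card *
        (aF n a * W1 * cF n (ind (insert u.1 B)) * W2).trace := fun u => by
    refine (avg_bad hν R _ (fun ω hω => Finset.sum_nonneg fun v _ =>
      mul_nonneg (ha _) (hG ω hω v u)) Good 𝒲 hW u.1 (fun B => 2 ^ B.card * (Real.exp 1 *
        (Real.exp 1 * ((cF n (ind (insert u.1 B)) * aF n (ind (insert u.1 B)) * (W1 * W2)).trace /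
          (W1 * W2).trace) / B.card) ^ B.card *
        (aF n a * W1 * cF n (ind (insert u.1 B)) * W2).trace)) fun B hB φ => ?_).trans
      (le_of_eq ?_)
    · have hne : (sl B φ).Nonempty := by
        rw [← Finset.card_pos, card_sl, Finset.card_pos, Finset.nonempty_iff_ne_empty]
        rintro rfl; exact hW0 _ hB
      have hc := ((hcor _ W1 W2 h1 h2 hZ (sl B φ) (fun w => ind (insert u.1 B) w.1) hne
        (fun w => ind_nonneg _ _) fun w hw =>
          one_le_ind (Finset.mem_insert_of_mem (mem_of_mem_sl hw))).2 (fun w => a w.1) u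
          (fun w => ha _) (one_le_ind (Finset.mem_insert_self _ _))).1
      rw [card_sl, hcomm] at hc
      calc _ = ∑ v : X × Fin n, a v.1 * ∑ ω, ν ω * (if sl B φ ⊆ R ω then G ω v u else 0) := by
            simp only [Finset.mul_sum]
            rw [Finset.sum_comm]
            refine Finset.sum_congr rfl fun ω _ => ?_
            split_ifs
            · rw [Finset.mul_sum]; exact Finset.sum_congr rfl fun v _ => by ring
            · simp
        _ ≤ ∑ v : X × Fin n, a v.1 * (2 ^ B.card * (an v * W1 * (cr u * nb (sl B φ)) * W2).trace) :=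
            Finset.sum_le_sum fun v _ => mul_le_mul_of_nonneg_left
              (by simpa only [card_sl] using hb u v (sl B φ)) (ha _)
        _ = 2 ^ B.card * (aF n a * W1 * (cr u * nb (sl B φ)) * W2).trace := by
            rw [trace_aF, Finset.mul_sum]; exact Finset.sum_congr rfl fun v _ => by ring
        _ ≤ _ := mul_le_mul_of_nonneg_left hc (by positivity)
    · rw [Finset.mul_sum]
      refine Finset.sum_congr rfl fun B _ => ?_
      rw [rarM, ← rar_eq]; ring
  calc _ = ∑ u : X × Fin n, a u.1 * ∑ ω, ν ω *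
      (if u.1 ∉ Good ((R ω).image Prod.fst) then ∑ v : X × Fin n, a v.1 * G ω v u else 0) := by
        simp only [Finset.mul_sum]
        rw [Finset.sum_comm]
        refine Finset.sum_congr rfl fun u _ => Finset.sum_congr rfl fun ω _ => ?_
        split_ifs
        · simp
        · simp only [Finset.mul_sum]; exact Finset.sum_congr rfl fun v _ => by ring
    _ ≤ ∑ u : X × Fin n, a u.1 * (Real.exp 1 * ∑ B ∈ 𝒲 u.1, rarM n (W1 * W2) (insert u.1 B) B.card *
        (aF n a * W1 * cF n (ind (insert u.1 B)) * W2).trace) :=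
        Finset.sum_le_sum fun u _ => mul_le_mul_of_nonneg_left (key u) (ha _)
    _ = _ := by
        rw [Fintype.sum_prod_type, Finset.mul_sum]
        refine Finset.sum_congr rfl fun x _ => ?_
        simp only [Finset.sum_const, Finset.card_univ, Fintype.card_fin, nsmul_eq_mul]
        ring

theorem bad_snk (hcor : CorStmt) (W1 W2 : BOp (X × Fin n)) (h1 : W1 ∈ Adm (X × Fin n))
    (h2 : W2 ∈ Adm (X × Fin n)) (hZ : 0 < (W1 * W2).trace)
    {Ω : Type} [Fintype Ω] (ν : Ω → ℝ) (hν : ∀ ω, 0 ≤ ν ω)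
    (R : Ω → Finset (X × Fin n)) (G : Ω → X × Fin n → X × Fin n → ℝ)
    (hG : ∀ ω, 0 < ν ω → ∀ v u, 0 ≤ G ω v u)
    (hb : ∀ u v (A : Finset (X × Fin n)), ∑ ω, ν ω * (if A ⊆ R ω then G ω v u else 0) ≤
        2 ^ A.card * (nb A * an v * W1 * cr u * W2).trace)
    (a : X → ℝ) (ha : ∀ x, 0 ≤ a x) (𝒲 : X → Finset (Finset X))
    (hW0 : ∀ x, ∅ ∉ 𝒲 x) (Good : Finset X → Finset X)
    (hW : ∀ S x, x ∉ Good S → ∃ B ∈ 𝒲 x, B ⊆ S) :
    ∑ ω, ν ω * ∑ u : X × Fin n, ∑ v : X × Fin n,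
      (if v.1 ∉ Good ((R ω).image Prod.fst) then a u.1 * a v.1 * G ω v u else 0) ≤
      n * Real.exp 1 * ∑ x, a x * ∑ B ∈ 𝒲 x, rarM n (W1 * W2) (insert x B) B.card *
        (aF n (ind (insert x B)) * W1 * cF n a * W2).trace := by
  have key : ∀ v : X × Fin n, ∑ ω, ν ω *
      (if v.1 ∉ Good ((R ω).image Prod.fst) then ∑ u : X × Fin n, a u.1 * G ω v u else 0) ≤
      Real.exp 1 * ∑ B ∈ 𝒲 v.1, rarM n (W1 * W2) (insert v.1 B) B.card *
        (aF n (ind (insert v.1 B)) * W1 * cF n a * W2).trace := fun v => by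
    refine (avg_bad hν R _ (fun ω hω => Finset.sum_nonneg fun u _ =>
      mul_nonneg (ha _) (hG ω hω v u)) Good 𝒲 hW v.1 (fun B => 2 ^ B.card * (Real.exp 1 *
        (Real.exp 1 * ((cF n (ind (insert v.1 B)) * aF n (ind (insert v.1 B)) * (W1 * W2)).trace /
          (W1 * W2).trace) / B.card) ^ B.card *
        (aF n (ind (insert v.1 B)) * W1 * cF n a * W2).trace)) fun B hB φ => ?_).trans
      (le_of_eq ?_)
    · have hne : (sl B φ).Nonempty := by
        rw [← Finset.card_pos, card_sl, Finset.card_pos, Finset.nonempty_iff_ne_empty]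
        rintro rfl; exact hW0 _ hB
      have hc := ((hcor _ W1 W2 h1 h2 hZ (sl B φ) (fun w => ind (insert v.1 B) w.1) hne
        (fun w => ind_nonneg _ _) fun w hw =>
          one_le_ind (Finset.mem_insert_of_mem (mem_of_mem_sl hw))).2 (fun w => a w.1) v
          (fun w => ha _) (one_le_ind (Finset.mem_insert_self _ _))).2
      rw [card_sl] at hc
      calc _ = ∑ u : X × Fin n, a u.1 * ∑ ω, ν ω * (if sl B φ ⊆ R ω then G ω v u else 0) := by
            simp only [Finset.mul_sum]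
            rw [Finset.sum_comm]
            refine Finset.sum_congr rfl fun ω _ => ?_
            split_ifs
            · rw [Finset.mul_sum]; exact Finset.sum_congr rfl fun v _ => by ring
            · simp
        _ ≤ ∑ u : X × Fin n, a u.1 * (2 ^ B.card * (nb (sl B φ) * an v * W1 * cr u * W2).trace) :=
            Finset.sum_le_sum fun u _ => mul_le_mul_of_nonneg_left
              (by simpa only [card_sl] using hb u v (sl B φ)) (ha _)
        _ = 2 ^ B.card * (nb (sl B φ) * an v * W1 * cF n a * W2).trace := by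
            rw [trace_cF, Finset.mul_sum]; exact Finset.sum_congr rfl fun v _ => by ring
        _ ≤ _ := mul_le_mul_of_nonneg_left hc (by positivity)
    · rw [Finset.mul_sum]
      refine Finset.sum_congr rfl fun B _ => ?_
      rw [rarM, ← rar_eq]; ring
  calc _ = ∑ v : X × Fin n, a v.1 * ∑ ω, ν ω *
      (if v.1 ∉ Good ((R ω).image Prod.fst) then ∑ u : X × Fin n, a u.1 * G ω v u else 0) := by
        simp only [Finset.mul_sum]
        rw [Finset.sum_comm (s := (Finset.univ : Finset (X × Fin n)))]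
        refine Finset.sum_congr rfl fun ω _ => ?_
        rw [Finset.sum_comm]
        refine Finset.sum_congr rfl fun v _ => ?_
        split_ifs
        · simp
        · simp only [Finset.mul_sum]; exact Finset.sum_congr rfl fun v _ => by ring
    _ ≤ ∑ v : X × Fin n, a v.1 * (Real.exp 1 * ∑ B ∈ 𝒲 v.1, rarM n (W1 * W2) (insert v.1 B) B.card *
        (aF n (ind (insert v.1 B)) * W1 * cF n a * W2).trace) :=
        Finset.sum_le_sum fun v _ => mul_le_mul_of_nonneg_left (key v) (ha _)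
    _ = _ := by
        rw [Fintype.sum_prod_type, Finset.mul_sum]
        refine Finset.sum_congr rfl fun x _ => ?_
        simp only [Finset.sum_const, Finset.card_univ, Fintype.card_fin, nsmul_eq_mul]
        ring

theorem cost_avg (hcor : CorStmt) (W : BOp (X × Fin n)) (h1 : W ∈ Adm (X × Fin n))
    (hZ : 0 < W.trace) {Ω : Type} [Fintype Ω] (ν : Ω → ℝ) (hν : ∀ ω, 0 ≤ ν ω)
    (hνZ : ∑ ω, ν ω = W.trace) (R : Ω → Finset (X × Fin n))
    (hb : ∀ A : Finset (X × Fin n), ∑ ω, ν ω * (if A ⊆ R ω then 1 else 0) ≤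
        2 ^ A.card * (nb A * W).trace)
    (c0 : ℝ) (c : Finset X → ℝ) (hc : ∀ A, 0 ≤ c A) (hc0 : c ∅ = 0) :
    ∑ ω, ν ω * (c0 + ∑ A ∈ ((R ω).image Prod.fst).powerset, c A) ≤
      W.trace * (c0 + ∑ A, c A * rarM n W A A.card) := by
  have key : ∀ A : Finset X, c A * ∑ ω, ν ω * (if A ⊆ (R ω).image Prod.fst then 1 else 0) ≤
      W.trace * (c A * rarM n W A A.card) := fun A => by
    rcases A.eq_empty_or_nonempty with rfl | hA
    · simp [hc0]
    have := avg_choice hν R (fun _ => 1) (fun _ _ => zero_le_one) A (2 ^ A.card * (W.trace *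
      (Real.exp 1 * ((cF n (ind A) * aF n (ind A) * W).trace / W.trace) / A.card) ^ A.card))
      fun φ => by
        have hne : (sl A φ).Nonempty := by rwa [← Finset.card_pos, card_sl, Finset.card_pos]
        have hc := (hcor _ W 1 h1 (Submonoid.one_mem _) (by rwa [mul_one]) (sl A φ)
          (fun w => ind A w.1) hne (fun w => ind_nonneg _ _) fun w hw =>
            one_le_ind (mem_of_mem_sl hw)).1
        rw [card_sl, mul_one] at hc
        have h2 := hb (sl A φ)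
        rw [card_sl] at h2
        exact h2.trans (mul_le_mul_of_nonneg_left hc (by positivity))
    refine (mul_le_mul_of_nonneg_left this (hc A)).trans (le_of_eq ?_)
    rw [rarM, ← rar_eq]; ring
  have e : ∀ ω, ∑ A ∈ ((R ω).image Prod.fst).powerset, c A =
      ∑ A, c A * (if A ⊆ (R ω).image Prod.fst then 1 else 0) := fun ω => by
    simp only [mul_ite, mul_one, mul_zero, ← Finset.sum_filter]
    exact Finset.sum_congr (by ext A; simp) fun _ _ => rfl
  simp only [e, mul_add, Finset.sum_add_distrib, ← Finset.sum_mul, hνZ, Finset.mul_sum]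
  rw [Finset.sum_comm]
  refine add_le_add le_rfl (Finset.sum_le_sum fun A _ => le_trans (le_of_eq ?_) (key A))
  rw [Finset.mul_sum]
  exact Finset.sum_congr rfl fun ω _ => by ring

open Classical in
theorem core (hcor : CorStmt) {M : ℕ} (V : BOp (X × Fin n)) (hV : V ∈ Adm (X × Fin n))
    (hZ : 0 < (V ^ M).trace)
    {Ω : Type} [Fintype Ω] (ν : Ω → ℝ) (hν : ∀ ω, 0 ≤ ν ω) (hνZ : ∑ ω, ν ω = (V ^ M).trace)
    (R : Ω → ℕ → Finset (X × Fin n)) (G : Ω → ℕ → X × Fin n → ℕ → X × Fin n → ℝ)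
    (cl : Ω → ℕ → Prop) (γ : Ω → ℕ → X × Fin n → ℝ) {Γ η δ lam : ℝ} (hδ : 0 ≤ δ) (hlam : 0 ≤ lam)
    (hG : ∀ ω, 0 < ν ω → ∀ i' v i u, 0 ≤ G ω i' v i u ∧ G ω i' v i u ≤ Γ)
    (hGp : ∀ ω i', G ω (M + i') = G ω i') (hγp : ∀ ω i', γ ω (M + i') = γ ω i')
    (h1 : ∀ i k u v, 1 ≤ k → k < M →
      ∑ ω, ν ω * G ω (i + k) v i u = (an v * V ^ k * cr u * V ^ (M - k)).trace)
    (h2 : ∀ i k u v (A : Finset (X × Fin n)), 1 ≤ k → k < M →
      ∑ ω, ν ω * (if A ⊆ R ω i then G ω (i + k) v i u else 0) ≤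
        2 ^ A.card * (an v * V ^ k * (cr u * nb A) * V ^ (M - k)).trace)
    (h3 : ∀ i k u v (A : Finset (X × Fin n)), 1 ≤ k → k < M →
      ∑ ω, ν ω * (if A ⊆ R ω (i + k) then G ω (i + k) v i u else 0) ≤
        2 ^ A.card * (nb A * an v * V ^ k * cr u * V ^ (M - k)).trace)
    (h4 : ∀ i (A : Finset (X × Fin n)), ∑ ω, ν ω * (if A ⊆ R ω i then 1 else 0) ≤
        2 ^ A.card * (nb A * V ^ M).trace)
    (h5 : ∀ i, ∑ ω, ν ω * (if cl ω i then 0 else 1) ≤ η)
    (a : X → ℝ) (ha : ∀ x, 0 ≤ a x) (c0 : ℝ) (c : Finset X → ℝ) (𝒲 : X → Finset (Finset X))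
    (hc : ∀ A, 0 ≤ c A) (hc0 : c ∅ = 0) (hW0 : ∀ x, ∅ ∉ 𝒲 x) (Good : Finset X → Finset X)
    (hW : ∀ S x, x ∉ Good S → ∃ B ∈ 𝒲 x, B ⊆ S)
    (hγ : ∀ ω i u, γ ω i u =
      if cl ω i ∧ u.1 ∈ Good ((R ω i).image Prod.fst) then δ * a u.1 else 0)
    (hX : ∀ ω, 0 < ν ω → ∑ i' ∈ range M, ∑ v, γ ω i' v * ∑ i ∈ range M, ∑ u,
        G ω i' v i u * γ ω i u ≤
      lam * ∑ i ∈ range M, (c0 + ∑ A ∈ ((R ω i).image Prod.fst).powerset, c A)) :
    δ ^ 2 * M * ∑ k ∈ Ico 1 M, (aF n a * V ^ k * cF n a * V ^ (M - k)).trace ≤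
      lam * M * ((V ^ M).trace * (c0 + ∑ A, c A * rarM n (V ^ M) A A.card)) +
      δ ^ 2 * M * (n * Real.exp 1 * ∑ x, a x * ∑ B ∈ 𝒲 x, rarM n (V ^ M) (insert x B) B.card *
        (∑ k ∈ Ico 1 M, (aF n a * V ^ k * cF n (ind (insert x B)) * V ^ (M - k)).trace +
          ∑ k ∈ Ico 1 M, (aF n (ind (insert x B)) * V ^ k * cF n a * V ^ (M - k)).trace)) +
      δ ^ 2 * M * (M * (2 * (∑ u : X × Fin n, a u.1) ^ 2 * Γ * η)) := by
  have hpow : ∀ k, k < M → V ^ k * V ^ (M - k) = V ^ M := fun k hk => by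
    rw [← pow_add]; congr 1; omega
  set J0 := 2 * (∑ u : X × Fin n, a u.1) ^ 2 * Γ * η with hJ0
  set b1 : ℕ → ℝ := fun k => n * Real.exp 1 * ∑ x, a x * ∑ B ∈ 𝒲 x,
    rarM n (V ^ M) (insert x B) B.card *
      (aF n a * V ^ k * cF n (ind (insert x B)) * V ^ (M - k)).trace with hb1
  set b2 : ℕ → ℝ := fun k => n * Real.exp 1 * ∑ x, a x * ∑ B ∈ 𝒲 x,
    rarM n (V ^ M) (insert x B) B.card *
      (aF n (ind (insert x B)) * V ^ k * cF n a * V ^ (M - k)).trace with hb2
  set P : Ω → ℕ → ℕ → ℝ := fun ω i i' => ∑ v, γ ω i' v * ∑ u, G ω i' v i u * γ ω i u with hP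
  have hγ0 : ∀ ω i u, 0 ≤ γ ω i u := fun ω i u => by
    have := ha u.1
    rw [hγ]; split_ifs <;> positivity
  obtain ⟨ω0, hω0⟩ : ∃ ω, 0 < ν ω := by
    by_contra hcon
    push Not at hcon
    have : ∑ ω, ν ω ≤ 0 := Finset.sum_nonpos fun ω _ => hcon ω
    linarith
  have hη : 0 ≤ η := le_trans (Finset.sum_nonneg fun ω _ =>
    mul_nonneg (hν ω) (by split_ifs <;> norm_num)) (h5 0)
  have hJ00 : 0 ≤ J0 := by
    rcases isEmpty_or_nonempty (X × Fin n) with he | ⟨⟨u⟩⟩
    · simp [hJ0]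
    · have hΓ : 0 ≤ Γ := (hG ω0 hω0 0 u 0 u).1.trans (hG ω0 hω0 0 u 0 u).2
      positivity
  have step1 : ∀ i, ∀ k ∈ Ico 1 M, δ ^ 2 * (aF n a * V ^ k * cF n a * V ^ (M - k)).trace ≤
      ∑ ω, ν ω * P ω i (i + k) + δ ^ 2 * (b1 k + b2 k + J0) := by
    intro i k hk
    obtain ⟨hk1, hkM⟩ := Finset.mem_Ico.1 hk
    have hW1 := Submonoid.pow_mem _ hV k
    have hW2 := Submonoid.pow_mem _ hV (M - k)
    have hZ' : 0 < (V ^ k * V ^ (M - k)).trace := by rwa [hpow k hkM]
    have e1 := bad_src hcor _ _ hW1 hW2 hZ' (pow_mul_comm V _ _) ν hν (fun ω => R ω i)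
      (fun ω v u => G ω (i + k) v i u) (fun ω hω v u => (hG ω hω _ _ _ _).1)
      (fun u v A => h2 i k u v A hk1 hkM) a ha 𝒲 hW0 Good hW
    have e2 := bad_snk hcor _ _ hW1 hW2 hZ' ν hν (fun ω => R ω (i + k))
      (fun ω v u => G ω (i + k) v i u) (fun ω hω v u => (hG ω hω _ _ _ _).1)
      (fun u v A => h3 i k u v A hk1 hkM) a ha 𝒲 hW0 Good hW
    rw [hpow k hkM] at e1 e2
    have e0 : (aF n a * V ^ k * cF n a * V ^ (M - k)).trace =
        ∑ ω, ν ω * ∑ u : X × Fin n, ∑ v : X × Fin n, a u.1 * a v.1 * G ω (i + k) v i u := by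
      rw [trace_aF]
      simp only [trace_cF, ← h1 i k _ _ hk1 hkM, Finset.mul_sum]
      rw [Finset.sum_comm]
      simp only [Finset.sum_comm (t := (Finset.univ : Finset Ω))]
      refine Finset.sum_congr rfl fun ω _ => Finset.sum_congr rfl fun u _ =>
        Finset.sum_congr rfl fun v _ => by ring
    have e3 : ∑ ω, ν ω * ∑ u : X × Fin n, ∑ v : X × Fin n, a u.1 * a v.1 * Γ *
        ((if cl ω i then 0 else 1) + (if cl ω (i + k) then 0 else 1)) ≤ J0 := by
      have e : ∀ ω, ∑ u : X × Fin n, ∑ v : X × Fin n, a u.1 * a v.1 * Γ *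
          ((if cl ω i then 0 else 1) + (if cl ω (i + k) then 0 else 1)) =
          (∑ u : X × Fin n, a u.1) ^ 2 * Γ *
            ((if cl ω i then 0 else 1) + (if cl ω (i + k) then (0 : ℝ) else 1)) := fun ω => by
        rw [sq, Finset.sum_mul_sum, Finset.sum_mul, Finset.sum_mul]
        exact Finset.sum_congr rfl fun u _ => by rw [Finset.sum_mul, Finset.sum_mul]
      simp only [e]
      rcases isEmpty_or_nonempty (X × Fin n) with he | ⟨⟨u⟩⟩
      · simp [hJ0]
      have hΓ : 0 ≤ Γ := (hG ω0 hω0 0 u 0 u).1.trans (hG ω0 hω0 0 u 0 u).2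
      have h51 := mul_le_mul_of_nonneg_left (add_le_add (h5 i) (h5 (i + k)))
        (show 0 ≤ (∑ u : X × Fin n, a u.1) ^ 2 * Γ by positivity)
      rw [← Finset.sum_add_distrib, Finset.mul_sum] at h51
      refine le_trans (le_of_eq (Finset.sum_congr rfl fun ω _ => by ring)) (h51.trans (le_of_eq ?_))
      rw [hJ0]; ring
    have e4 : ∑ ω, ν ω * (δ ^ 2 * ∑ u : X × Fin n, ∑ v : X × Fin n,
        a u.1 * a v.1 * G ω (i + k) v i u) ≤ ∑ ω, ν ω * (P ω i (i + k) + δ ^ 2 *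
        (∑ u : X × Fin n, ∑ v : X × Fin n, (if u.1 ∉ Good ((R ω i).image Prod.fst) then
            a u.1 * a v.1 * G ω (i + k) v i u else 0) +
          ∑ u : X × Fin n, ∑ v : X × Fin n, (if v.1 ∉ Good ((R ω (i + k)).image Prod.fst) then
            a u.1 * a v.1 * G ω (i + k) v i u else 0) +
          ∑ u : X × Fin n, ∑ v : X × Fin n, a u.1 * a v.1 * Γ *
            ((if cl ω i then 0 else 1) + (if cl ω (i + k) then 0 else 1)))) := by
      refine avg_le hν fun ω hω => ?_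
      have eP : P ω i (i + k) = ∑ u, ∑ v, γ ω (i + k) v * (G ω (i + k) v i u * γ ω i u) := by
        simp only [hP, Finset.mul_sum]; exact Finset.sum_comm
      rw [eP]
      simp only [mul_add, Finset.mul_sum, ← Finset.sum_add_distrib]
      refine Finset.sum_le_sum fun u _ => Finset.sum_le_sum fun v _ => ?_
      obtain ⟨g0, g1⟩ := hG ω hω (i + k) v i u
      have t0 : 0 ≤ δ ^ 2 * (a u.1 * a v.1 * G ω (i + k) v i u) :=
        mul_nonneg (sq_nonneg _) (mul_nonneg (mul_nonneg (ha _) (ha _)) g0)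
      have t1 : δ ^ 2 * (a u.1 * a v.1 * G ω (i + k) v i u) ≤ δ ^ 2 * (a u.1 * a v.1 * Γ) :=
        mul_le_mul_of_nonneg_left (mul_le_mul_of_nonneg_left g1 (mul_nonneg (ha _) (ha _)))
          (sq_nonneg _)
      have t2 : δ * a v.1 * (G ω (i + k) v i u * (δ * a u.1)) =
          δ ^ 2 * (a u.1 * a v.1 * G ω (i + k) v i u) := by ring
      rw [hγ, hγ]
      by_cases c1 : cl ω i <;> by_cases c2 : cl ω (i + k) <;>
        by_cases c3 : u.1 ∈ Good ((R ω i).image Prod.fst) <;>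
        by_cases c4 : v.1 ∈ Good ((R ω (i + k)).image Prod.fst) <;>
        simp only [c1, c2, c3, c4, and_self, and_true, and_false, not_true, not_false_iff, if_true,
          if_false, mul_zero, zero_mul, mul_one, t2] <;> linarith
    have e5 : δ ^ 2 * (aF n a * V ^ k * cF n a * V ^ (M - k)).trace =
        ∑ ω, ν ω * (δ ^ 2 * ∑ u : X × Fin n, ∑ v : X × Fin n,
          a u.1 * a v.1 * G ω (i + k) v i u) := by
      rw [e0, Finset.mul_sum]; exact Finset.sum_congr rfl fun ω _ => by ring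
    rw [e5]
    refine e4.trans ?_
    have e6 := mul_le_mul_of_nonneg_left (add_le_add (add_le_add e1 e2) e3) (sq_nonneg δ)
    refine le_trans (le_of_eq ?_) (add_le_add le_rfl e6)
    rw [← Finset.sum_add_distrib, ← Finset.sum_add_distrib, Finset.mul_sum,
      ← Finset.sum_add_distrib]
    exact Finset.sum_congr rfl fun ω _ => by ring
  have step2 : ∑ i ∈ range M, ∑ k ∈ Ico 1 M, ∑ ω, ν ω * P ω i (i + k) ≤
      lam * M * ((V ^ M).trace * (c0 + ∑ A, c A * rarM n (V ^ M) A A.card)) := by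
    calc _ = ∑ ω, ν ω * ∑ i ∈ range M, ∑ k ∈ Ico 1 M, P ω i (i + k) := by
          simp only [Finset.mul_sum, Finset.sum_comm (t := (Finset.univ : Finset Ω))]
      _ ≤ ∑ ω, ν ω * (lam * ∑ i ∈ range M,
            (c0 + ∑ A ∈ ((R ω i).image Prod.fst).powerset, c A)) := by
          refine avg_le hν fun ω hω => le_trans ?_ (hX ω hω)
          have hP0 : ∀ i i', 0 ≤ P ω i i' := fun i i' => Finset.sum_nonneg fun v _ =>
            mul_nonneg (hγ0 _ _ _) (Finset.sum_nonneg fun u _ =>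
              mul_nonneg (hG ω hω _ _ _ _).1 (hγ0 _ _ _))
          calc _ ≤ ∑ i ∈ range M, ∑ i' ∈ range M, P ω i i' := by
                refine Finset.sum_le_sum fun i _ => ?_
                rw [← sum_range_shift (P ω i) M (fun j => by simp only [hP, hGp, hγp]) i]
                refine Finset.sum_le_sum_of_subset_of_nonneg (fun k hk => ?_) fun k _ _ => hP0 _ _
                exact Finset.mem_range.2 (Finset.mem_Ico.1 hk).2
            _ = _ := by
                rw [Finset.sum_comm]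
                refine Finset.sum_congr rfl fun i' _ => ?_
                simp only [hP, Finset.mul_sum]
                exact Finset.sum_comm
      _ = lam * ∑ i ∈ range M, ∑ ω, ν ω *
            (c0 + ∑ A ∈ ((R ω i).image Prod.fst).powerset, c A) := by
          rw [Finset.sum_comm, Finset.mul_sum]
          refine Finset.sum_congr rfl fun ω _ => ?_
          rw [← Finset.mul_sum]; ring
      _ ≤ lam * ∑ _i ∈ range M, (V ^ M).trace * (c0 + ∑ A, c A * rarM n (V ^ M) A A.card) :=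
          mul_le_mul_of_nonneg_left (Finset.sum_le_sum fun i _ => cost_avg hcor _
            (Submonoid.pow_mem _ hV M) hZ ν hν hνZ (fun ω => R ω i) (h4 i) c0 c hc hc0) hlam
      _ = _ := by rw [Finset.sum_const, Finset.card_range, nsmul_eq_mul]; ring
  have step3 := Finset.sum_le_sum fun i (_ : i ∈ range M) => Finset.sum_le_sum (step1 i)
  simp only [Finset.sum_add_distrib, Finset.sum_const, Finset.card_range, nsmul_eq_mul,
    ← Finset.mul_sum, Nat.card_Ico] at step3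
  have e7 : ∑ k ∈ Ico 1 M, b1 k + ∑ k ∈ Ico 1 M, b2 k =
      n * Real.exp 1 * ∑ x, a x * ∑ B ∈ 𝒲 x, rarM n (V ^ M) (insert x B) B.card *
        (∑ k ∈ Ico 1 M, (aF n a * V ^ k * cF n (ind (insert x B)) * V ^ (M - k)).trace +
          ∑ k ∈ Ico 1 M, (aF n (ind (insert x B)) * V ^ k * cF n a * V ^ (M - k)).trace) := by
    simp only [hb1, hb2, Finset.mul_sum, mul_add, Finset.sum_add_distrib,
      Finset.sum_comm (s := Ico 1 M)]
  have e8 : ((M - 1 : ℕ) : ℝ) * J0 ≤ M * J0 :=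
    mul_le_mul_of_nonneg_right (by exact_mod_cast Nat.sub_le M 1) hJ00
  have e9 := mul_le_mul_of_nonneg_left e8 (show 0 ≤ δ ^ 2 * M by positivity)
  rw [← e7]
  nlinarith

end Crest.Agent.N337.KV
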