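import Crest.Agent.N337.KV.Core

/-!
# Row 337, part KV: the finite-`M` inequality (helper23)
-/

set_option autoImplicit false
set_option linter.unusedSectionVars false

namespace Crest.Agent.N337.KV

open Crest.MathPhysics.SpinModel Crest.Agent.N337.Slot Finset Matrix Filter Topology

theorem prod_range_getD {α β : Type} [CommMonoid β] (l : List α) (d : α) (f : α → β) :
    ∏ j ∈ range l.length, f (l.getD j d) = (l.map f).prod := by
  induction l with
  | nil => simp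
  | cons x l ih =>
    rw [List.length_cons, Finset.prod_range_succ']
    simp only [List.getD_cons_succ, List.getD_cons_zero, ih, List.map_cons, List.prod_cons]
    exact mul_comm _ _

theorem sum_range_getD {α : Type} (l : List α) (d : α) (f : α → ℝ) :
    ∑ j ∈ range l.length, f (l.getD j d) = (l.map f).sum := by
  induction l with
  | nil => simp
  | cons x l ih =>
    rw [List.length_cons, Finset.sum_range_succ']
    simp only [List.getD_cons_succ, List.getD_cons_zero, ih, List.map_cons, List.sum_cons]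
    exact add_comm _ _

section word
variable {Λ : Type} [Fintype Λ] [DecidableEq Λ]

theorem fug_one : (fug 1 : BOp Λ) = 1 := by simp [fug]

theorem step_zero (x y : Λ) : step x y 0 = 1 := by simp [step]

/-- the letters of one period. -/
noncomputable def wd (w : List (Λ × Λ × ℝ)) (r : Λ → Λ → ℝ) (δ ζ0 : ℝ) (u0 : Λ) :
    List (Λ × Λ × ℝ × ℝ) :=
  (prs Λ).map (fun q => (q.1, q.2, δ * r q.1 q.2 / 2, 1)) ++
    (u0, u0, 0, ζ0) :: w.reverse.map fun q => (q.1, q.2.1, q.2.2, 1)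

/-- the operator of a letter. -/
def lop (q : Λ × Λ × ℝ × ℝ) : BOp Λ := fug q.2.2.2 * step q.1 q.2.1 q.2.2.1

theorem wd_length (w : List (Λ × Λ × ℝ)) (r : Λ → Λ → ℝ) (δ ζ0 : ℝ) (u0 : Λ) :
    (prs Λ).length < (wd w r δ ζ0 u0).length := by simp [wd]

theorem wd_prod (w : List (Λ × Λ × ℝ)) (r : Λ → Λ → ℝ) (h δ : ℝ) (u0 : Λ) :
    ((wd w r δ (Real.exp (-(δ * h))) u0).map lop).reverse.prod =
      per (w.map fun q => step q.1 q.2.1 q.2.2).prod r h δ := by
  simp [wd, per, sweep, lop, fug_one, step_zero, Function.comp_def, List.map_reverse, mul_assoc]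

theorem wd_zeta (w : List (Λ × Λ × ℝ)) (r : Λ → Λ → ℝ) (δ ζ0 : ℝ) (u0 : Λ) :
    ((wd w r δ ζ0 u0).map fun q => q.2.2.2).prod = ζ0 := by
  simp [wd, Function.comp_def]

theorem wd_getD_lt (w : List (Λ × Λ × ℝ)) (r : Λ → Λ → ℝ) (δ ζ0 : ℝ) (u0 : Λ) (d : Λ × Λ × ℝ × ℝ)
    {j : ℕ} (hj : j < (prs Λ).length) : (wd w r δ ζ0 u0).getD j d =
      (((prs Λ).getD j (u0, u0)).1, ((prs Λ).getD j (u0, u0)).2,
        δ * r ((prs Λ).getD j (u0, u0)).1 ((prs Λ).getD j (u0, u0)).2 / 2, 1) := by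
  rw [wd, List.getD_append _ _ _ _ (by simpa using hj)]
  simp [List.getD_eq_getElem?_getD, List.getElem?_eq_getElem hj]

theorem wd_getD_eq (w : List (Λ × Λ × ℝ)) (r : Λ → Λ → ℝ) (δ ζ0 : ℝ) (u0 : Λ)
    (d : Λ × Λ × ℝ × ℝ) : (wd w r δ ζ0 u0).getD (prs Λ).length d = (u0, u0, 0, ζ0) := by
  rw [wd, List.getD_append_right _ _ _ _ (by simp)]
  simp

theorem wd_mem {w : List (Λ × Λ × ℝ)} (hw : ∀ q ∈ w, 0 ≤ q.2.2 ∧ q.2.2 ≤ 1) {r : Λ → Λ → ℝ}
    {δ ζ0 : ℝ} (hr : ∀ x y, 0 ≤ δ * r x y / 2 ∧ δ * r x y / 2 ≤ 1) (hζ : 0 < ζ0 ∧ ζ0 ≤ 1) (u0 : Λ) :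
    ∀ q ∈ wd w r δ ζ0 u0, (0 ≤ q.2.2.1 ∧ q.2.2.1 ≤ 1) ∧ (0 < q.2.2.2 ∧ q.2.2.2 ≤ 1) := by
  intro q hq
  simp only [wd, List.mem_append, List.mem_map, List.mem_cons, List.mem_reverse] at hq
  rcases hq with ⟨q', -, rfl⟩ | rfl | ⟨q', hq', rfl⟩
  · exact ⟨hr _ _, one_pos, le_rfl⟩
  · exact ⟨⟨le_rfl, zero_le_one⟩, hζ⟩
  · exact ⟨hw _ hq', one_pos, le_rfl⟩

theorem lop_mem {q : Λ × Λ × ℝ × ℝ} (h : (0 ≤ q.2.2.1 ∧ q.2.2.1 ≤ 1) ∧ (0 < q.2.2.2 ∧ q.2.2.2 ≤ 1)) :
    lop q ∈ Adm Λ :=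
  Submonoid.mul_mem _ (Submonoid.subset_closure (Or.inr ⟨_, h.2.1, rfl⟩))
    (Submonoid.subset_closure (Or.inl ⟨_, _, _, h.1.1, h.1.2, rfl⟩))

end word

variable {X : Type} [Fintype X] [DecidableEq X] {n : ℕ}

/-- normalised Riemann sum of two-time amplitudes. -/
noncomputable def rs (β : ℝ) (M : ℕ) (V A B : BOp (X × Fin n)) : ℝ :=
  β / M * (∑ k ∈ Ico 1 M, (A * V ^ k * B * V ^ (M - k)).trace) / (V ^ M).trace

theorem fin_at (hrep : RepStmt) (hcor : CorStmt) (hn : 1 ≤ n) {J : X → X → ℝ}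
    (hJ : ∀ x y, 0 ≤ J x y) {β h κ : ℝ} (hβ : 0 < β) (hh : 0 < h) (hκ : 0 < κ) (u0 : X × Fin n)
    (w : List ((X × Fin n) × (X × Fin n) × ℝ)) (hw : ∀ q ∈ w, 0 ≤ q.2.2 ∧ q.2.2 ≤ 1)
    (a : X → ℝ) (ha : ∀ x, 0 ≤ a x) (c0 : ℝ) (c : Finset X → ℝ) (𝒲 : X → Finset (Finset X))
    (hc00 : 0 ≤ c0) (hc : ∀ A, 0 ≤ c A) (hc0 : c ∅ = 0) (hW0 : ∀ x, ∅ ∉ 𝒲 x)
    (Good : Finset X → Finset X) (hdis : ∀ S, Disjoint (Good S) S)
    (hquad : ∀ S (ψ : X → ℝ), (∀ x, 0 ≤ ψ x) → (∑ x ∈ Good S, a x * ψ x) ^ 2 ≤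
      (c0 + ∑ A ∈ S.powerset, c A) * (spinVal n * dir J S ψ + h * ∑ x ∈ Sᶜ, ψ x ^ 2))
    (hW : ∀ S x, x ∉ Good S → ∃ B ∈ 𝒲 x, B ⊆ S) {M : ℕ} (hM : 2 ≤ M)
    (hp1 : ∀ x y, β / M * (J x y / 2) / 2 ≤ 1)
    (hκ1 : κ ≤ Real.exp (-(β / M * h)) ^ 2)
    (hκ2 : 2 * κ * (β / M) * h ≤ 1 - Real.exp (-(β / M * h)) ^ 2 -
      16 * (β / M * ∑ q : (X × Fin n) × (X × Fin n), J q.1.1 q.2.1 / 2 / 2) ^ 2)
    (V : BOp (X × Fin n)) (hVdef : V = per (w.map fun q => step q.1 q.2.1 q.2.2).prod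
      (fun u v : X × Fin n => J u.1 v.1 / 2) h (β / M)) :
    rs β M V (aF n a) (cF n a) ≤ n / κ * (c0 + ∑ A, c A * rarM n (V ^ M) A A.card) +
      n * Real.exp 1 * ∑ x, a x * ∑ B ∈ 𝒲 x, rarM n (V ^ M) (insert x B) B.card *
        (rs β M V (aF n a) (cF n (ind (insert x B))) + rs β M V (aF n (ind (insert x B))) (cF n a)) +
      (β * (2 * (∑ u : X × Fin n, a u.1) ^ 2 * (1 / (1 - Real.exp (-(β * h)))) *
        (2 ^ Fintype.card (X × Fin n) *
          (β * ∑ q : (X × Fin n) × (X × Fin n), J q.1.1 q.2.1 / 2 / 2)))) / M := by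
  classical
  have hM0 : (0 : ℝ) < M := by positivity
  set δ := β / M with hδdef
  have hδ : 0 < δ := by positivity
  set ζ0 := Real.exp (-(δ * h)) with hζ0def
  have hζ0 : 0 < ζ0 ∧ ζ0 ≤ 1 := ⟨Real.exp_pos _, Real.exp_le_one_iff.2 (by
    have := mul_pos hδ hh; linarith)⟩
  set r : X × Fin n → X × Fin n → ℝ := fun u v => J u.1 v.1 / 2 with hr
  set l := wd w r δ ζ0 u0 with hl
  set L := l.length with hL
  set m := (prs (X × Fin n)).length with hm
  have hmL : m < L := wd_length w r δ ζ0 u0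
  have hL0 : 0 < L := by omega
  haveI : NeZero (M * L) := ⟨(Nat.mul_pos (by omega) hL0).ne'⟩
  set D : ℕ → (X × Fin n) × (X × Fin n) × ℝ × ℝ := fun k => l.getD (k % L) (u0, u0, 0, 1) with hD
  have hDtm : ∀ k, D (tm (M * L) k).val = D k := fun k => by
    simp only [hD, tm_val, Nat.mod_mod_of_dvd _ (Dvd.intro_left M rfl)]
  have hDper : ∀ j, D (L + j) = D j := fun j => by simp only [hD, Nat.add_mod_left]
  have hDlt : ∀ i, ∀ j < L, D (i * L + j) = l.getD j (u0, u0, 0, 1) := fun i j hj => by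
    simp only [hD, Nat.mul_add_mod', Nat.mod_eq_of_lt hj]
  have hlmem := wd_mem hw (r := r) (δ := δ) (fun x y => ⟨by
    have := hJ x.1 y.1; simp only [hr]; positivity, hp1 _ _⟩) hζ0 u0
  have hDmem : ∀ k, D k ∈ l := fun k => by
    have hk : k % L < l.length := Nat.mod_lt _ hL0
    simp only [hD, List.getD_eq_getElem?_getD, List.getElem?_eq_getElem hk, Option.getD_some]
    exact List.getElem_mem hk
  have hV : pr (fun k => lop (D k)) L = V := by
    rw [hVdef, ← wd_prod w r h δ u0, ← pr_getD, List.length_map]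
    refine pr_congr fun j hj => ?_
    have := hDlt 0 j hj
    rw [Nat.zero_mul, Nat.zero_add] at this
    rw [this]
    have hj' : j < l.length := hj
    simp only [List.getD_eq_getElem?_getD, List.getElem?_map, ← hζ0def, ← hl,
      List.getElem?_eq_getElem hj', Option.getD_some, Option.map_some]
  have hVA : V ∈ Adm (X × Fin n) := by
    rw [← hV]
    refine Submonoid.list_prod_mem _ fun A hA => ?_
    obtain ⟨j, -, rfl⟩ := List.mem_map.1 (List.mem_reverse.1 hA)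
    exact lop_mem (hlmem _ (hDmem j))
  have hprod : ∏ s : Fin (M * L), (D s.val).2.2.2 = Real.exp (-(β * h)) := by
    rw [prod_tm, prod_range_mul]
    have : ∀ i ∈ range M, ∏ j ∈ range L, (D (tm (M * L) (i * L + j)).val).2.2.2 = ζ0 :=
      fun i _ => by
        rw [← wd_zeta w r δ ζ0 u0, ← prod_range_getD _ (u0, u0, 0, 1)]
        exact Finset.prod_congr rfl fun j hj => by rw [hDtm, hDlt i j (Finset.mem_range.1 hj)]
    rw [Finset.prod_congr rfl this, Finset.prod_const, Finset.card_range, hζ0def,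
      ← Real.exp_nat_mul]
    congr 1
    rw [hδdef]; field_simp
  have hlt : Real.exp (-(β * h)) < 1 := Real.exp_lt_one_iff.2 (by have := mul_pos hβ hh; linarith)
  obtain ⟨Ω, _, ν, R, K, G, hν, hνZ, hZ1, hω, r1, r2, r3, r4, r5⟩ :=
    hrep (X × Fin n) (M * L) (fun s => (D s.val).1) (fun s => (D s.val).2.1)
      (fun s => (D s.val).2.2.1) (fun s => (D s.val).2.2.2) (by nlinarith)
      (fun s => (hlmem _ (hDmem _)).1) (fun s => (hlmem _ (hDmem _)).2) (by rw [hprod]; exact hlt)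
  have hY : ∀ k, (fun s : Fin (M * L) => fug (D s.val).2.2.2 *
      step (D s.val).1 (D s.val).2.1 (D s.val).2.2.1) (tm (M * L) k) = (fun k => lop (D k)) k :=
    fun k => by simp only [hDtm, lop]
  have hYp : ∀ j, (fun k => lop (D k)) (L + j) = (fun k => lop (D k)) j := fun j => by
    simp only [hDper]
  rw [amp_one hY hYp, hV] at hνZ hZ1
  have hZ : 0 < (V ^ M).trace := by linarith
  set ρ := ∑ q : (X × Fin n) × (X × Fin n), J q.1.1 q.2.1 / 2 / 2 with hρ
  have hsum : ∀ i (φ : (X × Fin n) × (X × Fin n) → ℝ),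
      ∑ j ∈ range m, (D (tm (M * L) (i * L + j)).val).2.2.1 *
        φ ((D (tm (M * L) (i * L + j)).val).1, (D (tm (M * L) (i * L + j)).val).2.1) =
        δ * ∑ q, J q.1.1 q.2.1 / 2 / 2 * φ q := fun i φ => by
    have e := sum_range_getD (prs (X × Fin n)) (u0, u0) fun q => δ * r q.1 q.2 / 2 * φ q
    rw [prs, Finset.sum_map_toList] at e
    rw [Finset.mul_sum, Finset.sum_congr rfl (g := fun q => δ * r q.1 q.2 / 2 * φ q)
      fun q _ => by simp only [hr]; ring, ← e]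
    refine Finset.sum_congr rfl fun j hj => ?_
    have hj' : j < m := Finset.mem_range.1 hj
    rw [hDtm, hDlt i j (by omega), hl, wd_getD_lt _ _ _ _ _ _ hj']
    rfl
  have hper : ∀ i j, tm (M * L) ((M + i) * L + j) = tm (M * L) (i * L + j) := fun i j => by
    rw [Nat.add_mul, Nat.add_assoc, tm_add_self]
  have hper0 : ∀ i, tm (M * L) ((M + i) * L) = tm (M * L) (i * L) := fun i => hper i 0
  have hcore := core hcor V hVA hZ ν hν hνZ (fun ω i => R ω (tm (M * L) (i * L)))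
    (fun ω i' v i u => G ω (tm (M * L) (i' * L), v) (tm (M * L) (i * L), u))
    (fun ω i => Clean M L m (R ω) i) (fun ω => src M L m (R ω) Good δ a)
    (Γ := 1 / (1 - Real.exp (-(β * h)))) (η := 2 ^ Fintype.card (X × Fin n) * (δ * ρ))
    (δ := δ) (lam := δ * n / κ) hδ.le (by positivity)
    (fun ω h0 i' v i u => by rw [← hprod]; exact (hω ω h0).1 _ _)
    (fun ω i' => by simp only [hper0])
    (fun ω i' => by
      funext u
      have e : Clean M L m (R ω) (M + i') = Clean M L m (R ω) i' := by simp only [Clean, hper]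
      simp only [src, hper0, e])
    (fun i k u v hk hkM => by rw [r1 _ _ _ _ (tm_ne hk hkM), amp_ins2 hY hYp i hk hkM, hV])
    (fun i k u v A hk hkM => by
      have := r2 _ _ u v A (tm_ne (i := i) hk hkM)
      rwa [amp_ins2 hY hYp i hk hkM, hV] at this)
    (fun i k u v A hk hkM => by
      have := r3 _ _ u v A (tm_ne (i := i) hk hkM)
      rwa [amp_ins2 hY hYp i hk hkM, hV] at this)
    (fun i A => by
      have := r4 (tm (M * L) (i * L)) A
      rwa [amp_ins1 hY hYp i, hV] at this)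
    (fun i => by
      have e := hsum i fun _ => 1
      simp only [mul_one] at e
      rw [hρ, ← e, Finset.mul_sum]
      refine le_trans ?_ (Finset.sum_le_sum fun j _ => r5 (tm (M * L) (i * L + j)))
      rw [Finset.sum_comm]
      simp only [← Finset.mul_sum]
      refine avg_le hν fun ω _ => ?_
      have h0 : ∀ j, (0 : ℝ) ≤ if R ω (tm (M * L) (i * L + j) + 1) = R ω (tm (M * L) (i * L + j))
          then 0 else 1 := fun j => by split_ifs <;> norm_num
      split_ifs with hcl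
      · exact Finset.sum_nonneg fun j _ => h0 j
      · simp only [Clean, not_forall] at hcl
        obtain ⟨j, hj, hne⟩ := hcl
        refine le_trans ?_ (Finset.single_le_sum (fun j _ => h0 j) (Finset.mem_range.2 hj))
        rw [if_neg hne])
    a ha c0 c 𝒲 hc hc0 hW0 Good hW (fun ω i u => by simp only [src])
    (fun ω h0 => by
      obtain ⟨g1, g2, g3, g4, g5⟩ := hω ω h0
      exact omega_bound hn hJ hmL hδ.le hκ hh.le _ _ _ _ (fun s => (hlmem _ (hDmem _)).1)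
        (fun s => (hlmem _ (hDmem _)).2)
        (fun i j hj => by rw [hDtm, hDlt i j (by omega), hl, wd_getD_lt _ _ _ _ _ _ hj])
        (fun i => by rw [hDtm, hDlt i m hmL, hl, hm, wd_getD_eq]) hsum hκ1 hκ2 (R ω) (K ω) (G ω)
        (fun v u => (g1 v u).1) g2 g3 g4 g5 a ha Good (fun S => c0 + ∑ A ∈ S.powerset, c A)
        (fun S => add_nonneg hc00 (Finset.sum_nonneg fun A _ => hc A)) hdis hquad)
  set Z := (V ^ M).trace with hZdef
  have hρ0 : 0 ≤ ρ := Finset.sum_nonneg fun q _ => by have := hJ q.1.1 q.2.1; positivity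
  have hΓ0 : 0 ≤ 1 / (1 - Real.exp (-(β * h))) := by
    have : 0 < 1 - Real.exp (-(β * h)) := by linarith
    positivity
  set Jk := 2 * (∑ u : X × Fin n, a u.1) ^ 2 * (1 / (1 - Real.exp (-(β * h)))) with hJk
  have hJk0 : 0 ≤ Jk := by positivity
  have e1 : ∀ A B : BOp (X × Fin n), rs β M V A B =
      δ / Z * ∑ k ∈ Ico 1 M, (A * V ^ k * B * V ^ (M - k)).trace := fun A B => by
    rw [rs, ← hZdef, ← hδdef]; ring
  have e2 : ∑ x, a x * ∑ B ∈ 𝒲 x, rarM n (V ^ M) (insert x B) B.card *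
        (rs β M V (aF n a) (cF n (ind (insert x B))) + rs β M V (aF n (ind (insert x B))) (cF n a)) =
      δ / Z * ∑ x, a x * ∑ B ∈ 𝒲 x, rarM n (V ^ M) (insert x B) B.card *
        (∑ k ∈ Ico 1 M, (aF n a * V ^ k * cF n (ind (insert x B)) * V ^ (M - k)).trace +
          ∑ k ∈ Ico 1 M, (aF n (ind (insert x B)) * V ^ k * cF n a * V ^ (M - k)).trace) := by
    rw [Finset.mul_sum]
    refine Finset.sum_congr rfl fun x _ => ?_
    rw [Finset.mul_sum, Finset.mul_sum, Finset.mul_sum]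
    refine Finset.sum_congr rfl fun B _ => ?_
    rw [e1, e1]; ring
  rw [e2, e1]
  have hβδ : β = δ * M := by rw [hδdef]; field_simp
  have h9 : β * (Jk * (2 ^ Fintype.card (X × Fin n) * (δ * ρ))) / Z ≤
      β * (Jk * (2 ^ Fintype.card (X × Fin n) * (β * ρ))) / M := by
    have : β * (Jk * (2 ^ Fintype.card (X × Fin n) * (β * ρ))) / M =
        β * (Jk * (2 ^ Fintype.card (X × Fin n) * (δ * ρ))) := by rw [hδdef]; ring
    rw [this]
    exact div_le_self (by positivity) hZ1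
  refine le_trans ?_ (add_le_add le_rfl h9)
  have h10 := div_le_div_of_nonneg_right hcore (show 0 ≤ δ * M * Z by positivity)
  refine le_trans (le_of_eq ?_) (h10.trans (le_of_eq ?_))
  · field_simp
  · conv_rhs => rw [hβδ]
    field_simp

end Crest.Agent.N337.KV
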