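import Crest.Agent.N337.Basic
import Crest.Agent.N337.KV.Fin
import Crest.Agent.N337.KV.Cor
import Crest.Agent.N337.KV.Lim
import Crest.Agent.N337.Slot.Slot
import Crest.Agent.N337.Rep.Main

/-!
# Row 337, part KV: `KVStmt` from `LYStmt` (helper23)
-/

set_option autoImplicit false
set_option linter.unusedSectionVars false

namespace Crest.Agent.N337.KV

open Crest.MathPhysics.SpinModel Crest.Agent.N337.Slot Finset Matrix Filter Topology

variable {X : Type} [Fintype X] [DecidableEq X] {n : ℕ}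

theorem lift_sum {U : Matrix (X × Fin n → Bool) (X → Fin (n + 1)) ℝ} {S : X → Op X n}
    {s : X × Fin n → BOp (X × Fin n)} (h : ∀ x, cx U * S x = cx (∑ i : Fin n, s (x, i)) * cx U)
    (a : X → ℝ) : cx U * (∑ x, ((a x : ℝ) : ℂ) • S x) =
      cx (∑ u : X × Fin n, a u.1 • s u) * cx U := by
  have e : cx (∑ u : X × Fin n, a u.1 • s u) =
      ∑ x, ((a x : ℝ) : ℂ) • cx (∑ i : Fin n, s (x, i)) := by
    ext σ τ
    simp [Matrix.sum_apply, Fintype.sum_prod_type, Finset.mul_sum]
  rw [e, Matrix.mul_sum, Matrix.sum_mul]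
  exact Finset.sum_congr rfl fun x _ => by rw [Matrix.mul_smul, Matrix.smul_mul, h]

theorem lift_mul {U : Matrix (X × Fin n → Bool) (X → Fin (n + 1)) ℝ} {A B : Op X n}
    {A' B' : BOp (X × Fin n)} (hA : cx U * A = cx A' * cx U) (hB : cx U * B = cx B' * cx U) :
    cx U * (A * B) = cx (A' * B') * cx U := by
  have e : cx (A' * B') = cx A' * cx B' := Matrix.map_mul (f := Complex.ofRealHom)
  rw [← Matrix.mul_assoc, hA, Matrix.mul_assoc, hB, e, Matrix.mul_assoc]

theorem SmF_ind (B : Finset X) : SmF n (ind B) = ∑ v ∈ B, Sm n v := by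
  simp only [SmF, ind, apply_ite ((↑) : ℝ → ℂ), Complex.ofReal_one, Complex.ofReal_zero, ite_smul,
    one_smul, zero_smul, Finset.sum_ite_mem, Finset.univ_inter]

theorem SpF_ind (B : Finset X) : SpF n (ind B) = ∑ v ∈ B, Sp n v := by
  simp only [SpF, ind, apply_ite ((↑) : ℝ → ℂ), Complex.ofReal_one, Complex.ofReal_zero, ite_smul,
    one_smul, zero_smul, Finset.sum_ite_mem, Finset.univ_inter]

theorem ev_small {β h κ ρ : ℝ} (hβ : 0 < β) (hh : 0 < h) (hκ : κ < 1) :
    ∀ᶠ M : ℕ in atTop, κ ≤ Real.exp (-(β / M * h)) ^ 2 ∧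
      2 * κ * (β / M) * h ≤ 1 - Real.exp (-(β / M * h)) ^ 2 - 16 * (β / M * ρ) ^ 2 := by
  have h0 : Tendsto (fun M : ℕ => β / M) atTop (𝓝 0) := tendsto_const_div_atTop_nhds_zero_nat β
  have h1 : ∀ᶠ M : ℕ in atTop, β / M * (2 * h) < 1 - κ :=
    (h0.mul_const (2 * h)).eventually_lt_const (by rw [zero_mul]; linarith)
  have h2 : ∀ᶠ M : ℕ in atTop, β / M * (4 * h ^ 2 + 16 * ρ ^ 2) < 2 * (1 - κ) * h :=
    (h0.mul_const _).eventually_lt_const (by rw [zero_mul]; nlinarith)
  filter_upwards [h1, h2] with M h1 h2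
  set δ := β / M with hδ
  have hδ0 : 0 ≤ δ := by positivity
  have e : Real.exp (-(δ * h)) ^ 2 = Real.exp (-(δ * (2 * h))) := by
    rw [← Real.exp_nat_mul]; congr 1; push_cast; ring
  rw [e]
  set t := δ * (2 * h) with ht
  have ht0 : 0 ≤ t := by positivity
  have a1 := Real.add_one_le_exp (-t)
  have a2 : Real.exp (-t) ≤ 1 - t + t ^ 2 := by
    have b1 := Real.add_one_le_exp t
    have b2 : Real.exp (-t) * Real.exp t = 1 := by rw [← Real.exp_add]; simp
    have b3 := Real.exp_pos (-t)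
    have b4 : Real.exp (-t) * (t + 1) ≤ 1 := by nlinarith
    by_contra hcon
    push Not at hcon
    nlinarith [mul_pos (sub_pos.2 hcon) (show 0 < t + 1 by linarith), pow_nonneg ht0 3]
  refine ⟨by linarith, ?_⟩
  have := mul_le_mul_of_nonneg_left h2.le hδ0
  simp only [ht] at a2 ⊢
  nlinarith

theorem kv_of (hrep : RepStmt) (hcor : CorStmt) (hlim : LimStmt) (hslot : SlotStmt) : KVStmt := by
  intro X _ _ n J β h hn hJ hβ hh a ha c0 c 𝒲 hc00 hc hc0 hW0 hG
  rcases isEmpty_or_nonempty X with he | ⟨⟨x0⟩⟩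
  · have e : Df n J β h a = 0 := by simp [Df, duh, SpF]
    have e2 : ∑ A : Finset X, c A * rar n J β h A A.card = 0 :=
      Finset.sum_eq_zero fun A _ => by rw [Finset.eq_empty_of_isEmpty A, hc0, zero_mul]
    rw [e, e2]
    simp only [Finset.univ_eq_empty, Finset.sum_empty, mul_zero, add_zero]
    positivity
  choose Good hdis hquad hW using hG
  obtain ⟨U, e0, w, hw, hU, hP, hSp, hSm, hH⟩ := hslot X n J h hn hJ
  obtain ⟨l1, l2⟩ := hlim X n J β h e0 U hβ hU hH
  have hp : ∀ b : X → ℝ, cx U * SpF n b = cx (aF n b) * cx U := fun b => lift_sum hSp b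
  have hm : ∀ b : X → ℝ, cx U * SmF n b = cx (cF n b) * cx U := fun b => lift_sum hSm b
  set V : ℕ → BOp (X × Fin n) := fun M =>
    per (U * U.transpose) (fun u v : X × Fin n => J u.1 v.1 / 2) h (β / M) with hV
  have t1 : ∀ b b' : X → ℝ, Tendsto (fun M : ℕ => rs β M (V M) (aF n b) (cF n b')) atTop
      (𝓝 (duh n J β h (SpF n b) (SmF n b'))) := fun b b' => l2 _ _ _ _ (hp b) (hm b')
  have t2 : ∀ (B : Finset X) (m : ℕ), Tendsto (fun M : ℕ => rarM n (V M ^ M) B m) atTop
      (𝓝 (rar n J β h B m)) := fun B m =>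
    (((l1 _ _ (lift_mul (hm (ind B)) (hp (ind B)))).const_mul _).div_const _).pow m
  set S1 := c0 + ∑ A : Finset X, c A * rar n J β h A A.card with hS1
  set S2 := ∑ x : X, a x * ∑ B ∈ 𝒲 x, rar n J β h (insert x B) B.card *
    ∑ v ∈ insert x B, duh n J β h (SpF n a) (Sm n v) with hS2
  have key : ∀ κ : ℝ, 0 < κ → κ < 1 → Df n J β h a ≤ n / κ * S1 + 2 * n * Real.exp 1 * S2 := by
    intro κ hκ0 hκ1
    have h0 : Tendsto (fun M : ℕ => β / M) atTop (𝓝 0) := tendsto_const_div_atTop_nhds_zero_nat β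
    have hp1 : ∀ᶠ M : ℕ in atTop, ∀ x y, β / M * (J x y / 2) / 2 ≤ 1 :=
      Filter.eventually_all.2 fun x => Filter.eventually_all.2 fun y =>
        (((h0.mul_const (J x y / 2)).div_const 2).eventually_lt_const
          (by norm_num : 0 * (J x y / 2) / 2 < 1)).mono fun M hM => hM.le
    have hev := (hp1.and (ev_small (ρ := ∑ q : (X × Fin n) × (X × Fin n), J q.1.1 q.2.1 / 2 / 2)
      hβ hh hκ1)).and (eventually_ge_atTop 2) |>.mono fun M hM =>
        fin_at hrep hcor hn hJ.nonneg hβ hh hκ0 (x0, ⟨0, hn⟩) w hw a ha c0 c 𝒲 hc00 hc hc0 hW0 Good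
          hdis hquad hW hM.2 hM.1.1 hM.1.2.1 hM.1.2.2 (V M) (by rw [hV, hP])
    refine le_of_tendsto_of_tendsto (t1 a a) ?_ hev
    have t3 := (((tendsto_const_nhds (x := c0)).add (tendsto_finsetSum Finset.univ fun A _ =>
      (t2 A A.card).const_mul (c A))).const_mul (n / κ)).add
      ((tendsto_finsetSum Finset.univ fun x _ => (tendsto_finsetSum (𝒲 x) fun B _ =>
        (t2 (insert x B) B.card).mul ((t1 a (ind (insert x B))).add
          (t1 (ind (insert x B)) a))).const_mul (a x)).const_mul (n * Real.exp 1))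
    have t4 := t3.add (tendsto_const_div_atTop_nhds_zero_nat
      (β * (2 * (∑ u : X × Fin n, a u.1) ^ 2 * (1 / (1 - Real.exp (-(β * h)))) *
        (2 ^ Fintype.card (X × Fin n) *
          (β * ∑ q : (X × Fin n) × (X × Fin n), J q.1.1 q.2.1 / 2 / 2)))))
    convert t4 using 2
    rw [add_zero, hS1, hS2]
    congr 1
    simp only [Finset.mul_sum (a := 2 * n * Real.exp 1), Finset.mul_sum (a := n * Real.exp 1)]
    refine Finset.sum_congr rfl fun x _ => ?_
    have e : ∀ B ∈ 𝒲 x, rar n J β h (insert x B) B.card *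
        (duh n J β h (SpF n a) (SmF n (ind (insert x B))) +
          duh n J β h (SpF n (ind (insert x B))) (SmF n a)) =
        2 * (rar n J β h (insert x B) B.card *
          ∑ v ∈ insert x B, duh n J β h (SpF n a) (Sm n v)) := fun B _ => by
      rw [duh_SpF_SmF_symm J β h (ind (insert x B)) a, SmF_ind, duh_sum_right]; ring
    rw [Finset.sum_congr rfl e, ← Finset.mul_sum]; ring
  have hlimκ : Tendsto (fun κ : ℝ => n / κ * S1 + 2 * n * Real.exp 1 * S2) (𝓝[<] 1)
      (𝓝 (n / 1 * S1 + 2 * n * Real.exp 1 * S2)) :=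
    ((((continuousAt_const.div continuousAt_id one_ne_zero).mul continuousAt_const).add
      continuousAt_const).tendsto).mono_left nhdsWithin_le_nhds
  rw [div_one] at hlimκ
  refine ge_of_tendsto hlimκ ?_
  filter_upwards [Ioo_mem_nhdsLT (zero_lt_one' ℝ)] with κ hκ using key κ hκ.1 hκ.2

/-- **(KV)** from the Lee-Yang bound. -/
theorem kv (hLY : LYStmt) : KVStmt := kv_of Rep.rep (cor hLY) lim slot

end Crest.Agent.N337.KV
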