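import Crest.Agent.N337.KV.Energy
import Crest.Agent.N337.KV.Word

/-!
# Row 337, part KV: the Kipnis-Varadhan bound in a fixed environment (helper23)
-/

set_option autoImplicit false
set_option linter.unusedSectionVars false

namespace Crest.Agent.N337.KV

open Crest.MathPhysics.SpinModel Crest.Agent.N337.Slot Finset Matrix

theorem tm_mul_add_ne {M L : ℕ} [NeZero (M * L)] (i i' : ℕ) {j : ℕ} (hj : 0 < j) (hjL : j < L) :
    tm (M * L) (i * L + j) ≠ tm (M * L) (i' * L) := by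
  intro h
  have h1 : (i * L + j) % (M * L) % L = (i' * L) % (M * L) % L :=
    congrArg (fun s : Fin (M * L) => s.val % L) h
  rw [Nat.mod_mod_of_dvd _ (Dvd.intro_left M rfl), Nat.mod_mod_of_dvd _ (Dvd.intro_left M rfl),
    Nat.mul_add_mod', Nat.mul_mod_left, Nat.mod_eq_of_lt hjL] at h1
  omega

variable {X : Type} [Fintype X] [DecidableEq X] {n : ℕ}

/-- sweep `i` is clean: the red set does not change during its first `m` steps. -/
def Clean {Λ : Type} (M L m : ℕ) [NeZero (M * L)] (R : Fin (M * L) → Finset Λ) (i : ℕ) : Prop :=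
  ∀ j < m, R (tm (M * L) (i * L + j) + 1) = R (tm (M * L) (i * L + j))

theorem period_diss (hn : 1 ≤ n) {J : X → X → ℝ} (hJ : ∀ x y, 0 ≤ J x y) {m : ℕ}
    {δ κ h ζ0 : ℝ} (hδ : 0 ≤ δ) (hκ : 0 ≤ κ) (hh : 0 ≤ h) (ψ : ℕ → X × Fin n → ℝ)
    (ex ey : ℕ → X × Fin n) (p : ℕ → ℝ) (hp : ∀ j, 0 ≤ p j ∧ p j ≤ 1)
    (hsum : ∀ φ : (X × Fin n) × (X × Fin n) → ℝ,
      ∑ j ∈ range m, p j * φ (ex j, ey j) = δ * ∑ q, J q.1.1 q.2.1 / 2 / 2 * φ q)
    (hκ1 : κ ≤ ζ0 ^ 2) (hζ1 : ζ0 ^ 2 ≤ 1)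
    (hκ2 : 2 * κ * δ * h ≤ 1 - ζ0 ^ 2 -
      16 * (δ * ∑ q : (X × Fin n) × (X × Fin n), J q.1.1 q.2.1 / 2 / 2) ^ 2)
    (R : Finset (X × Fin n)) (hR : ∀ j ≤ m, ∀ u ∈ R, ψ j u = 0)
    (hs : ∀ j < m, ψ (j + 1) = (if ex j ∉ R ∧ ey j ∉ R then kstep R (ex j) (ey j) (p j)
      else kstep R (ex j) (ey j) 0).mulVec (ψ j)) :
    2 * κ * δ * (n * (spinVal n * dir J (R.image Prod.fst) (avg (ψ 0)) +
      h * ∑ x ∈ (R.image Prod.fst)ᶜ, avg (ψ 0) x ^ 2)) ≤
      ∑ u, ψ 0 u ^ 2 - ζ0 ^ 2 * ∑ u, ψ m u ^ 2 := by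
  set q : ℕ → ℝ := fun j => if ex j ∉ R ∧ ey j ∉ R then p j else 0 with hq
  have hq1 : ∀ j, 0 ≤ q j ∧ q j ≤ p j := fun j => by
    have := hp j
    simp only [hq]; split_ifs
    · exact ⟨this.1, le_rfl⟩
    · exact ⟨le_rfl, this.1⟩
  have h1 := sweep_diss ψ ex ey q m (fun j _ => ⟨(hq1 j).1, (hq1 j).2.trans (hp j).2⟩)
    fun j hj u => by rw [hs j hj, green_mulVec R _ _ _ _ (hR j hj.le)]
  set ρ := ∑ q : (X × Fin n) × (X × Fin n), J q.1.1 q.2.1 / 2 / 2 with hρ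
  have h2 : ∑ j ∈ range m, q j ≤ δ * ρ := by
    have := hsum fun _ => 1
    simp only [mul_one] at this
    rw [hρ, ← this]
    exact Finset.sum_le_sum fun j _ => (hq1 j).2
  have h2' : 0 ≤ ∑ j ∈ range m, q j := Finset.sum_nonneg fun j _ => (hq1 j).1
  set D := ∑ q : (X × Fin n) × (X × Fin n),
    (if q.1 ∉ R ∧ q.2 ∉ R then J q.1.1 q.2.1 / 2 / 2 else 0) * (ψ 0 q.1 - ψ 0 q.2) ^ 2 with hD
  have h3 : ∑ j ∈ range m, q j * (ψ 0 (ex j) - ψ 0 (ey j)) ^ 2 = δ * D := by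
    have := hsum fun q => if q.1 ∉ R ∧ q.2 ∉ R then (ψ 0 q.1 - ψ 0 q.2) ^ 2 else 0
    simp only [mul_ite, mul_zero] at this
    simp only [hq, hD, ite_mul, zero_mul]
    exact this
  have h4 := dir_ge hn hJ (ψ 0) R
  have h5 := mass_ge hn (ψ 0) (R.image Prod.fst)ᶜ
  rw [← hD] at h4
  rw [h3] at h1
  set N := ∑ u, ψ 0 u ^ 2 with hN
  have hN0 : 0 ≤ N := Finset.sum_nonneg fun _ _ => sq_nonneg _
  have hD0 : 0 ≤ D := Finset.sum_nonneg fun q _ => by
    have := hJ q.1.1 q.2.1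
    split_ifs <;> positivity
  have h6 : (∑ j ∈ range m, q j) ^ 2 ≤ (δ * ρ) ^ 2 := pow_le_pow_left₀ h2' h2 2
  have h7 : ∑ u, ψ m u ^ 2 ≤ N - 2 * (δ * D) + 16 * (δ * ρ) ^ 2 * N := by
    have := mul_le_mul_of_nonneg_right h6 hN0
    linarith
  have hz : 0 ≤ ζ0 ^ 2 := sq_nonneg _
  have h8 := mul_le_mul_of_nonneg_left h7 hz
  have h9 : κ * (δ * D) ≤ ζ0 ^ 2 * (δ * D) := mul_le_mul_of_nonneg_right hκ1 (by positivity)
  have h10 : ζ0 ^ 2 * (16 * (δ * ρ) ^ 2 * N) ≤ 1 * (16 * (δ * ρ) ^ 2 * N) :=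
    mul_le_mul_of_nonneg_right hζ1 (by positivity)
  have h11 := mul_le_mul_of_nonneg_right hκ2 hN0
  have h12 : κ * δ * (n * (spinVal n * dir J (R.image Prod.fst) (avg (ψ 0)))) ≤ κ * δ * D :=
    mul_le_mul_of_nonneg_left h4 (by positivity)
  have h13 : κ * δ * h * (n * ∑ x ∈ (R.image Prod.fst)ᶜ, avg (ψ 0) x ^ 2) ≤ κ * δ * h * N :=
    mul_le_mul_of_nonneg_left h5 (by positivity)
  nlinarith

open Classical in
/-- the good, clean source at macro time `i`. -/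
noncomputable def src (M L m : ℕ) [NeZero (M * L)] (R : Fin (M * L) → Finset (X × Fin n))
    (Good : Finset X → Finset X) (δ : ℝ) (a : X → ℝ) (i : ℕ) (u : X × Fin n) : ℝ :=
  if Clean M L m R i ∧ u.1 ∈ Good ((R (tm (M * L) (i * L))).image Prod.fst) then δ * a u.1 else 0

theorem omega_bound (hn : 1 ≤ n) {J : X → X → ℝ} (hJ : ∀ x y, 0 ≤ J x y) {M L m : ℕ}
    [NeZero (M * L)] (hmL : m < L)
    {δ κ h ζ0 : ℝ} (hδ : 0 ≤ δ) (hκ : 0 < κ) (hh : 0 ≤ h)
    (ex ey : Fin (M * L) → X × Fin n) (p ζ : Fin (M * L) → ℝ)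
    (hp : ∀ s, 0 ≤ p s ∧ p s ≤ 1) (hζ : ∀ s, 0 < ζ s ∧ ζ s ≤ 1)
    (hζ1 : ∀ i, ∀ j < m, ζ (tm (M * L) (i * L + j)) = 1) (hζ0 : ∀ i, ζ (tm (M * L) (i * L + m)) = ζ0)
    (hsum : ∀ i (φ : (X × Fin n) × (X × Fin n) → ℝ),
      ∑ j ∈ range m, p (tm (M * L) (i * L + j)) *
        φ (ex (tm (M * L) (i * L + j)), ey (tm (M * L) (i * L + j))) =
        δ * ∑ q, J q.1.1 q.2.1 / 2 / 2 * φ q)
    (hκ1 : κ ≤ ζ0 ^ 2)
    (hκ2 : 2 * κ * δ * h ≤ 1 - ζ0 ^ 2 -
      16 * (δ * ∑ q : (X × Fin n) × (X × Fin n), J q.1.1 q.2.1 / 2 / 2) ^ 2)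
    (R : Fin (M * L) → Finset (X × Fin n)) (K : Fin (M * L) → Matrix (X × Fin n) (X × Fin n) ℝ)
    (G : Fin (M * L) × (X × Fin n) → Fin (M * L) × (X × Fin n) → ℝ)
    (hG0 : ∀ v u, 0 ≤ G v u) (hGR : ∀ v u, v.2 ∈ R v.1 ∨ u.2 ∈ R u.1 → G v u = 0)
    (hrec : ∀ s y u, G (s + 1, y) u =
      (if (s + 1, y) = u ∧ y ∉ R (s + 1) then 1 else 0) + ζ s * ∑ x, K s y x * G (s, x) u)
    (hK : ∀ s (f : X × Fin n → ℝ), ∑ y, ((K s).mulVec f y) ^ 2 ≤ ∑ x, f x ^ 2)
    (hKs : ∀ s, R (s + 1) = R s → K s =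
      if ex s ∉ R s ∧ ey s ∉ R s then kstep (R s) (ex s) (ey s) (p s)
      else kstep (R s) (ex s) (ey s) 0)
    (a : X → ℝ) (ha : ∀ x, 0 ≤ a x) (Good : Finset X → Finset X) (C : Finset X → ℝ)
    (hC : ∀ S, 0 ≤ C S) (hdis : ∀ S, Disjoint (Good S) S)
    (hquad : ∀ S (ψ : X → ℝ), (∀ x, 0 ≤ ψ x) → (∑ x ∈ Good S, a x * ψ x) ^ 2 ≤
      C S * (spinVal n * dir J S ψ + h * ∑ x ∈ Sᶜ, ψ x ^ 2)) :
    ∑ i' ∈ range M, ∑ v, src M L m R Good δ a i' v * ∑ i ∈ range M, ∑ u,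
        G (tm (M * L) (i' * L), v) (tm (M * L) (i * L), u) * src M L m R Good δ a i u ≤
      δ * n / κ * ∑ i ∈ range M, C ((R (tm (M * L) (i * L))).image Prod.fst) := by
  set γ := src M L m R Good δ a with hγ
  have hγ0 : ∀ i u, 0 ≤ γ i u := fun i u => by
    have := ha u.1
    simp only [hγ, src]; split_ifs <;> positivity
  have hγR : ∀ i u, u ∈ R (tm (M * L) (i * L)) → γ i u = 0 := fun i u hu => by
    simp only [hγ, src]
    rw [if_neg]
    rintro ⟨-, h2⟩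
    exact Finset.disjoint_left.1 (hdis _) h2 (Finset.mem_image.2 ⟨u, hu, rfl⟩)
  set F : Fin (M * L) → X × Fin n → ℝ := fun s y =>
    ∑ i ∈ range M, ∑ u, G (s, y) (tm (M * L) (i * L), u) * γ i u with hF
  set g : Fin (M * L) → X × Fin n → ℝ := fun s y =>
    ∑ i ∈ range M, if s = tm (M * L) (i * L) then γ i y else 0 with hg
  set Fm : Fin (M * L) → X × Fin n → ℝ := fun s y => ζ s * (K s).mulVec (F s) y with hFm
  have hF0 : ∀ s y, 0 ≤ F s y := fun s y => Finset.sum_nonneg fun i _ =>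
    Finset.sum_nonneg fun u _ => mul_nonneg (hG0 _ _) (hγ0 _ _)
  have hFR : ∀ s y, y ∈ R s → F s y = 0 := fun s y hy =>
    Finset.sum_eq_zero fun i _ => Finset.sum_eq_zero fun u _ => by
      rw [hGR _ _ (Or.inl hy), zero_mul]
  have hstep : ∀ s y, F (s + 1) y = g (s + 1) y + Fm s y := fun s y => by
    simp only [hF, hg, hFm, hrec s y, add_mul, Finset.sum_add_distrib, Matrix.mulVec, dotProduct,
      Finset.mul_sum, Finset.sum_mul]
    congr 1
    · refine Finset.sum_congr rfl fun i _ => ?_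
      by_cases hs : s + 1 = tm (M * L) (i * L)
      · rw [if_pos hs, Finset.sum_eq_single y]
        · by_cases hy : y ∈ R (s + 1)
          · rw [hγR i y (hs ▸ hy), mul_zero]
          · rw [if_pos ⟨by rw [hs], hy⟩, one_mul]
        · intro u _ hu
          rw [if_neg, zero_mul]
          rintro ⟨h1, -⟩
          exact hu (Prod.ext_iff.1 h1).2.symm
        · simp
      · rw [if_neg hs]
        refine Finset.sum_eq_zero fun u _ => ?_
        rw [if_neg, zero_mul]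
        rintro ⟨h1, -⟩
        exact hs (Prod.ext_iff.1 h1).1
    · rw [Finset.sum_comm (s := Finset.univ)]
      refine Finset.sum_congr rfl fun i _ => ?_
      rw [Finset.sum_comm]
      refine Finset.sum_congr rfl fun u _ => Finset.sum_congr rfl fun x _ => by ring
  have hE := energy_ineq F g Fm hstep
  have hX : ∑ s, ∑ y, g s y * F s y = ∑ i ∈ range M, ∑ y, γ i y * F (tm (M * L) (i * L)) y := by
    simp only [hg, Finset.sum_mul, ite_mul, zero_mul]
    rw [Finset.sum_comm]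
    simp only [Finset.sum_comm (s := (Finset.univ : Finset (Fin (M * L)))), Finset.sum_ite_eq',
      Finset.mem_univ, if_true]
    exact Finset.sum_comm
  have hFm2 : ∀ s, ∑ y, Fm s y ^ 2 ≤ ζ s ^ 2 * ∑ y, F s y ^ 2 := fun s => by
    simp only [hFm, mul_pow, ← Finset.mul_sum]
    exact mul_le_mul_of_nonneg_left (hK s _) (sq_nonneg _)
  have hD0 : ∀ s, 0 ≤ ∑ y, F s y ^ 2 - ∑ y, Fm s y ^ 2 := fun s => by
    have h1 := hFm2 s
    have h2 : ζ s ^ 2 ≤ 1 := pow_le_one₀ (hζ s).1.le (hζ s).2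
    have h3 : 0 ≤ ∑ y, F s y ^ 2 := Finset.sum_nonneg fun _ _ => sq_nonneg _
    nlinarith
  rw [hX, sum_tm, sum_range_mul, Finset.mul_sum] at hE
  change ∑ i ∈ range M, ∑ y, γ i y * F (tm (M * L) (i * L)) y ≤ _
  have key : ∀ i ∈ range M, 2 * ∑ y, γ i y * F (tm (M * L) (i * L)) y -
      1 / 2 * ∑ j ∈ range L, (∑ y, F (tm (M * L) (i * L + j)) y ^ 2 -
        ∑ y, Fm (tm (M * L) (i * L + j)) y ^ 2) ≤
      δ * n / κ * C ((R (tm (M * L) (i * L))).image Prod.fst) := by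
    intro i _
    have hC' := hC ((R (tm (M * L) (i * L))).image Prod.fst)
    by_cases hc : Clean M L m R i
    · set ψ : ℕ → X × Fin n → ℝ := fun j => F (tm (M * L) (i * L + j)) with hψ
      set R0 := R (tm (M * L) (i * L)) with hR0
      have hRj : ∀ j ≤ m, R (tm (M * L) (i * L + j)) = R0 := fun j hj => by
        induction j with
        | zero => rfl
        | succ j ih => rw [← Nat.add_assoc, tm_succ, hc j (by omega), ih (by omega)]
      have hnext : ∀ j < m, ψ (j + 1) = Fm (tm (M * L) (i * L + j)) := fun j hj => by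
        funext y
        have e : g (tm (M * L) (i * L + j) + 1) y = 0 := Finset.sum_eq_zero fun i' _ => by
          rw [if_neg]
          rw [← tm_succ, Nat.add_assoc]
          exact tm_mul_add_ne i i' (by omega) (by omega)
        simp only [hψ]
        rw [← Nat.add_assoc, tm_succ, hstep, e, zero_add]
      have hζ0' : ζ0 ^ 2 ≤ 1 := by
        rw [← hζ0 i]; exact pow_le_one₀ (hζ _).1.le (hζ _).2
      have hP := period_diss hn hJ hδ hκ.le hh ψ (fun j => ex (tm (M * L) (i * L + j)))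
        (fun j => ey (tm (M * L) (i * L + j))) (fun j => p (tm (M * L) (i * L + j)))
        (fun j => hp _) (hsum i) hκ1 hζ0' hκ2 R0
        (fun j hj u hu => hFR _ _ (by rw [hRj j hj]; exact hu)) fun j hj => by
          rw [hnext j hj]
          funext y
          simp only [hFm]
          rw [hζ1 i j hj, one_mul, hKs _ (hc j hj), hRj j hj.le]
      have hT : ∑ u, ψ 0 u ^ 2 - ζ0 ^ 2 * ∑ u, ψ m u ^ 2 ≤
          ∑ j ∈ range L, (∑ y, F (tm (M * L) (i * L + j)) y ^ 2 -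
            ∑ y, Fm (tm (M * L) (i * L + j)) y ^ 2) := by
        refine le_trans ?_ (Finset.sum_le_sum_of_subset_of_nonneg
          (Finset.range_subset_range.2 (Nat.succ_le_of_lt hmL)) fun j _ _ => hD0 _)
        rw [Finset.sum_range_succ, Finset.sum_congr rfl (g := fun j =>
          ∑ y, ψ j y ^ 2 - ∑ y, ψ (j + 1) y ^ 2) fun j hj => by
            rw [hnext j (Finset.mem_range.1 hj)],
          Finset.sum_range_sub' (fun j => ∑ y, ψ j y ^ 2)]
        have := hFm2 (tm (M * L) (i * L + m))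
        rw [hζ0 i] at this
        simp only [hψ] at this ⊢
        linarith
      have hb : ∑ y, γ i y * F (tm (M * L) (i * L)) y =
          δ * n * ∑ x ∈ Good (R0.image Prod.fst), a x * avg (ψ 0) x := by
        rw [Fintype.sum_prod_type, Finset.mul_sum, ← Finset.sum_subset
          (Finset.subset_univ (Good (R0.image Prod.fst)))]
        · refine Finset.sum_congr rfl fun x hx => ?_
          have : ∀ j : Fin n, γ i (x, j) = δ * a x := fun j => by
            simp only [hγ, src]; rw [if_pos ⟨hc, hx⟩]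
          simp only [this, ← Finset.mul_sum]
          have e := sum_eq_avg hn (ψ 0) x
          simp only [hψ, Nat.add_zero] at e ⊢
          rw [e]; ring
        · intro x _ hx
          refine Finset.sum_eq_zero fun j _ => ?_
          simp only [hγ, src]
          rw [if_neg (fun h' => hx h'.2), zero_mul]
      have hq := hquad (R0.image Prod.fst) (avg (ψ 0)) (avg_nonneg fun u => hF0 _ _)
      set E := spinVal n * dir J (R0.image Prod.fst) (avg (ψ 0)) +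
        h * ∑ x ∈ (R0.image Prod.fst)ᶜ, avg (ψ 0) x ^ 2 with hEdef
      have hE0 : 0 ≤ E := by
        have h1 : 0 ≤ dir J (R0.image Prod.fst) (avg (ψ 0)) :=
          mul_nonneg (by norm_num) (Finset.sum_nonneg fun x _ => Finset.sum_nonneg fun y _ =>
            mul_nonneg (hJ x y) (sq_nonneg _))
        have h2 : 0 ≤ ∑ x ∈ (R0.image Prod.fst)ᶜ, avg (ψ 0) x ^ 2 :=
          Finset.sum_nonneg fun _ _ => sq_nonneg _
        have h3 : 0 ≤ spinVal n := by unfold spinVal; positivity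
        positivity
      have h2 := two_mul_sub_le hκ hC' hE0 hq
      have h3 := mul_le_mul_of_nonneg_left h2 (show 0 ≤ δ * n by positivity)
      rw [hb]
      have e : δ * n / κ * C (R0.image Prod.fst) = δ * n * (C (R0.image Prod.fst) / κ) := by ring
      rw [e]
      nlinarith
    · have hb : ∑ y, γ i y * F (tm (M * L) (i * L)) y = 0 := Finset.sum_eq_zero fun y _ => by
        simp only [hγ, src]
        rw [if_neg (fun h' => hc h'.1), zero_mul]
      have h1 : 0 ≤ ∑ j ∈ range L, (∑ y, F (tm (M * L) (i * L + j)) y ^ 2 -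
          ∑ y, Fm (tm (M * L) (i * L + j)) y ^ 2) := Finset.sum_nonneg fun j _ => hD0 _
      have h2 : 0 ≤ δ * n / κ * C ((R (tm (M * L) (i * L))).image Prod.fst) := by positivity
      rw [hb]; linarith
  have hs := Finset.sum_le_sum key
  rw [Finset.sum_sub_distrib, ← Finset.mul_sum, ← Finset.mul_sum (a := δ * n / κ)] at hs
  linarith

end Crest.Agent.N337.KV
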